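import Vale.Agent.Lib.P012_helper20.CCoverGood
import Vale.Agent.Lib.P012_helper16.CTrick

/-!
# P012c, module GR: every good numerator has a short representation
(duplicate of helper16's module, kept in its own namespace; do not import both names unqualified)
-/

namespace Vale.Agent.Lib.P012c.H13

open Finset
open Vale.Agent.Lib.P012b Vale.Agent.Lib.P012c

/-- the smooth part of `g`. -/
noncomputable def grS (y g : ℕ) : ℕ :=
  ∏ p ∈ g.primeFactors.filter (fun p => p ≤ y), p ^ g.factorization p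

/-- the rough primes of `g`. -/
def grQ (y g : ℕ) : Finset ℕ := g.primeFactors.filter (fun p => y < p)

theorem gr_factor (y g : ℕ) (hg : 1 ≤ g) (hsq : ∀ n, y < n → ¬ n ^ 2 ∣ g) :
    g = grS y g * ∏ q ∈ grQ y g, q := by
  have h0 : g ≠ 0 := by omega
  have h1 : g = ∏ p ∈ g.primeFactors, p ^ g.factorization p := by
    conv_lhs => rw [← Nat.prod_factorization_pow_eq_self h0]
    rfl
  have h2 : ∏ p ∈ g.primeFactors, p ^ g.factorization p
      = (∏ p ∈ g.primeFactors.filter (fun p => p ≤ y), p ^ g.factorization p)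
        * ∏ p ∈ g.primeFactors.filter (fun p => ¬ p ≤ y), p ^ g.factorization p :=
    (Finset.prod_filter_mul_prod_filter_not _ _ _).symm
  have h3 : g.primeFactors.filter (fun p => ¬ p ≤ y) = grQ y g := by
    unfold grQ
    apply Finset.filter_congr
    intro p _
    omega
  have h4 : ∏ p ∈ grQ y g, p ^ g.factorization p = ∏ q ∈ grQ y g, q := by
    apply Finset.prod_congr rfl
    intro q hq
    have hq' := Finset.mem_filter.mp hq
    have hqp : q.Prime := Nat.prime_of_mem_primeFactors hq'.1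
    have hdvd : q ∣ g := Nat.dvd_of_mem_primeFactors hq'.1
    have hge : 1 ≤ g.factorization q :=
      (hqp.dvd_iff_one_le_factorization h0).mp hdvd
    have hlt : ¬ 2 ≤ g.factorization q := by
      intro h
      exact hsq q hq'.2 ((hqp.pow_dvd_iff_le_factorization h0).mpr h)
    have : g.factorization q = 1 := by omega
    rw [this, pow_one]
  rw [h3, h4] at h2
  unfold grS
  rw [← h2]
  exact h1

theorem gr_smooth_dvd (y E g : ℕ) (hg : 1 ≤ g) (hpow : ∀ n, 2 ≤ n → ¬ n ^ (E + 1) ∣ g) :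
    grS y g ∣ (primorial y) ^ E := by
  have h0 : g ≠ 0 := by omega
  have h1 : grS y g ∣ ∏ p ∈ g.primeFactors.filter (fun p => p ≤ y), p ^ E := by
    unfold grS
    apply Finset.prod_dvd_prod_of_dvd
    intro p hp
    have hp' := Finset.mem_filter.mp hp
    have hpp : p.Prime := Nat.prime_of_mem_primeFactors hp'.1
    apply pow_dvd_pow
    by_contra h
    have h' : E + 1 ≤ g.factorization p := by omega
    exact hpow p hpp.two_le ((hpp.pow_dvd_iff_le_factorization h0).mpr h')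
  refine h1.trans ?_
  rw [Finset.prod_pow]
  apply pow_dvd_pow_of_dvd
  unfold primorial
  apply Finset.prod_dvd_prod_of_subset
  intro p hp
  have hp' := Finset.mem_filter.mp hp
  have hpp : p.Prime := Nat.prime_of_mem_primeFactors hp'.1
  rw [Finset.mem_filter, Finset.mem_range]
  exact ⟨by omega, hpp⟩

/-- a divisor of a product of primes exceeding `y` is coprime to every positive `m ≤ y`. -/
theorem gr_coprime_small (y : ℕ) (P : Finset ℕ) (hPp : ∀ p ∈ P, p.Prime) (hPy : ∀ p ∈ P, y < p)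
    (x : ℕ) (hx : x ∣ ∏ p ∈ P, p) (m : ℕ) (hm1 : 1 ≤ m) (hm : m ≤ y) : Nat.Coprime m x := by
  apply Nat.Coprime.coprime_dvd_right hx
  apply Nat.Coprime.prod_right
  intro p hp
  rw [Nat.coprime_comm, Nat.Prime.coprime_iff_not_dvd (hPp p hp)]
  intro h
  have := Nat.le_of_dvd (by omega) h
  have := hPy p hp
  omega

theorem good_rep_of (hC : CoverAbsStmt) (y E K Θ M Z : ℕ) (P A₁ B₁ A₂ B₂ : Finset ℕ)
    (e₁ e₂ e₃ e₄ : ℕ)
    (hΘ : 1 ≤ Θ) (hy32 : 32 ≤ y) (hyK : 2 ^ 17 * K < y ^ 3)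
    (hPp : ∀ p ∈ P, p.Prime) (hPy : ∀ p ∈ P, y < p)
    (hA₁ : ∀ a ∈ A₁, 2 ^ e₁ ≤ a ∧ a < 2 ^ (e₁ + 1)) (hB₁ : ∀ a ∈ B₁, 2 ^ e₂ ≤ a ∧ a < 2 ^ (e₂ + 1))
    (hA₂ : ∀ a ∈ A₂, 2 ^ e₃ ≤ a ∧ a < 2 ^ (e₃ + 1)) (hB₂ : ∀ a ∈ B₂, 2 ^ e₄ ≤ a ∧ a < 2 ^ (e₄ + 1))
    (hdvd : ∀ a ∈ A₁ ∪ B₁ ∪ A₂ ∪ B₂, a ∣ ∏ p ∈ P, p)
    (hdiv : ∀ a₁ ∈ A₁, ∀ b₁ ∈ B₁, ∀ a₂ ∈ A₂, ∀ b₂ ∈ B₂, a₁ * b₁ * a₂ * b₂ ∣ ∏ p ∈ P, p)
    (hZ : (primorial y) ^ E * Nat.factorial 513 * ∏ p ∈ P, p ∣ Z)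
    (hc₁ : Θ ^ 3 ≤ A₁.card ^ 4) (hc₁' : Θ ^ 3 ≤ B₁.card ^ 4)
    (hc₂ : M ^ 3 ≤ A₂.card ^ 4) (hc₂' : M ^ 3 ≤ B₂.card ^ 4)
    (g : ℕ) (hg : Good y E K Θ P A₁ B₁ A₂ B₂ g) (hg1 : 1 ≤ g) (hgM : g < M)
    (B : ℕ) (hZB : Z ∣ B) (hB : 0 < B) :
    ∃ S : Finset ℕ, S.card ≤ 16 ∧ (∀ n ∈ S, 1 ≤ n ∧ n * g ≤ B * 512) ∧
      ∑ n ∈ S, (1 / n : ℚ) = g / B := by
  obtain ⟨hpow, hsq, hK, hPg, hNBg⟩ := hg
  set Q := grQ y g with hQdef
  set s := grS y g with hsdef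
  have hfac : g = s * ∏ q ∈ Q, q := gr_factor y g hg1 hsq
  have hsE : s ∣ (primorial y) ^ E := gr_smooth_dvd y E g hg1 hpow
  have hQsub : Q ⊆ g.primeFactors := Finset.filter_subset _ _
  have hQp : ∀ q ∈ Q, q.Prime := fun q hq => Nat.prime_of_mem_primeFactors (hQsub hq)
  have hQy : ∀ q ∈ Q, y < q := fun q hq => (Finset.mem_filter.mp hq).2
  have hQg : ∀ q ∈ Q, q ∣ g := fun q hq => Nat.dvd_of_mem_primeFactors (hQsub hq)
  have hQcard : Q.card ≤ K := (Finset.card_le_card hQsub).trans hK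
  have hyK' : 2 ^ 17 * Q.card < y ^ 3 :=
    lt_of_le_of_lt (Nat.mul_le_mul_left _ hQcard) hyK
  have hspos : 0 < s := by
    rcases Nat.eq_zero_or_pos s with h | h
    · rw [h, Nat.zero_mul] at hfac
      omega
    · exact h
  have hprodQ_le : ∏ q ∈ Q, q ≤ g := by
    calc ∏ q ∈ Q, q = 1 * ∏ q ∈ Q, q := (Nat.one_mul _).symm
      _ ≤ s * ∏ q ∈ Q, q := Nat.mul_le_mul_right _ hspos
      _ = g := hfac.symm
  have hprodQ_M : (∏ q ∈ Q, q) ^ 3 ≤ M ^ 3 :=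
    Nat.pow_le_pow_left (hprodQ_le.trans hgM.le) 3
  have hcop : ∀ q ∈ Q, ∀ a ∈ A₁ ∪ B₁ ∪ A₂ ∪ B₂, ¬ q ∣ a := by
    intro q hq a ha hqa
    have h1 : q ∣ ∏ p ∈ P, p := hqa.trans (hdvd a ha)
    obtain ⟨p, hp, hqp⟩ := (Prime.dvd_finsetProd_iff (hQp q hq).prime _).mp h1
    have : q = p := (Nat.prime_dvd_prime_iff_eq (hQp q hq) (hPp p hp)).mp hqp
    subst this
    exact hPg q hp (hQg q hq)
  have hNB : ∀ Q' ⊆ Q, Q'.Nonempty →
      NB Q' A₁ ∧ NB Q' B₁ ∧ (Θ < ∏ q ∈ Q', q → NB Q' A₂ ∧ NB Q' B₂) := by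
    intro Q' hQ' hne
    exact hNBg Q' (hQ'.trans hQsub) hne (fun q hq => hQy q (hQ' hq))
  obtain ⟨f, hf, hfd⟩ := cover_good_of hC y Θ A₁ B₁ A₂ B₂ Q hΘ hQp hQy hy32 hyK' hcop hNB
    hc₁ hc₁' (hprodQ_M.trans hc₂) (hprodQ_M.trans hc₂')
  set x : Fin 16 → ℕ := fun i => (f i).1 * (f i).2.1 * (f i).2.2.1 * (f i).2.2.2 with hx
  set e := e₁ + e₂ + e₃ + e₄ with he
  have hxdvd : ∀ i, x i ∣ ∏ p ∈ P, p := fun i =>
    hdiv _ (hf i).1 _ (hf i).2.1 _ (hf i).2.2.1 _ (hf i).2.2.2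
  have hxlo : ∀ i, 2 ^ e ≤ x i := by
    intro i
    have h1 := (hA₁ _ (hf i).1).1
    have h2 := (hB₁ _ (hf i).2.1).1
    have h3 := (hA₂ _ (hf i).2.2.1).1
    have h4 := (hB₂ _ (hf i).2.2.2).1
    calc 2 ^ e = 2 ^ e₁ * 2 ^ e₂ * 2 ^ e₃ * 2 ^ e₄ := by rw [he, pow_add, pow_add, pow_add]
      _ ≤ x i := Nat.mul_le_mul (Nat.mul_le_mul (Nat.mul_le_mul h1 h2) h3) h4
  have hxhi : ∀ i, x i ≤ 16 * 2 ^ e := by
    intro i
    have h1 := (hA₁ _ (hf i).1).2.le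
    have h2 := (hB₁ _ (hf i).2.1).2.le
    have h3 := (hA₂ _ (hf i).2.2.1).2.le
    have h4 := (hB₂ _ (hf i).2.2.2).2.le
    calc x i ≤ 2 ^ (e₁ + 1) * 2 ^ (e₂ + 1) * 2 ^ (e₃ + 1) * 2 ^ (e₄ + 1) :=
          Nat.mul_le_mul (Nat.mul_le_mul (Nat.mul_le_mul h1 h2) h3) h4
      _ = 16 * 2 ^ e := by rw [he]; ring
  set dd : Fin 16 → ℕ := fun i => s * (17 + (i : ℕ)) * x i with hdd
  have hinj : Function.Injective dd := by
    intro i j hij
    have h1 : (17 + (i : ℕ)) * x i = (17 + (j : ℕ)) * x j := by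
      have : s * ((17 + (i : ℕ)) * x i) = s * ((17 + (j : ℕ)) * x j) := by
        have h : s * (17 + (i : ℕ)) * x i = s * (17 + (j : ℕ)) * x j := hij
        rw [Nat.mul_assoc, Nat.mul_assoc] at h
        exact h
      exact Nat.eq_of_mul_eq_mul_left hspos this
    have hi := i.isLt
    have hj := j.isLt
    have c1 : Nat.Coprime (17 + (j : ℕ)) (x i) :=
      gr_coprime_small y P hPp hPy _ (hxdvd i) _ (by omega) (by omega)
    have c2 : Nat.Coprime (17 + (i : ℕ)) (x j) :=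
      gr_coprime_small y P hPp hPy _ (hxdvd j) _ (by omega) (by omega)
    have d1 : (17 + (j : ℕ)) ∣ (17 + (i : ℕ)) :=
      c1.dvd_of_dvd_mul_right (Dvd.intro _ h1.symm)
    have d2 : (17 + (i : ℕ)) ∣ (17 + (j : ℕ)) :=
      c2.dvd_of_dvd_mul_right (Dvd.intro _ h1)
    have := Nat.dvd_antisymm d1 d2
    apply Fin.ext
    omega
  set D : Finset ℕ := Finset.univ.image dd with hD
  have hsumD : ∑ d ∈ D, d = ∑ i, dd i := Finset.sum_image (fun i _ j _ h => hinj h)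
  have hDcard : D.card ≤ 16 := by
    calc D.card ≤ (Finset.univ : Finset (Fin 16)).card := Finset.card_image_le
      _ = 16 := by simp
  have hDne : D.Nonempty := ⟨dd 0, Finset.mem_image_of_mem _ (Finset.mem_univ _)⟩
  have hDB : ∀ d ∈ D, d ∣ B := by
    intro d hd
    obtain ⟨i, _, rfl⟩ := Finset.mem_image.mp hd
    have hi := i.isLt
    have h1 : (17 + (i : ℕ)) ∣ Nat.factorial 513 := Nat.dvd_factorial (by omega) (by omega)
    exact ((mul_dvd_mul (mul_dvd_mul hsE h1) (hxdvd i)).trans hZ).trans hZB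
  have hgS : g ∣ ∑ d ∈ D, d := by
    rw [hsumD]
    have h1 : ∑ i, dd i = s * ∑ i : Fin 16, (17 + (i : ℕ)) * x i := by
      rw [Finset.mul_sum]
      apply Finset.sum_congr rfl
      intro i _
      simp only [hdd]
      ring
    rw [h1]
    conv_lhs => rw [hfac]
    exact Nat.mul_dvd_mul_left s hfd
  have hratio : ∀ d ∈ D, ∑ d' ∈ D, d' ≤ 512 * d := by
    intro d hd
    obtain ⟨i, _, rfl⟩ := Finset.mem_image.mp hd
    rw [hsumD]
    have hup : ∀ j : Fin 16, dd j ≤ s * 32 * (16 * 2 ^ e) := by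
      intro j
      have hj := j.isLt
      exact Nat.mul_le_mul (Nat.mul_le_mul_left s (by omega)) (hxhi j)
    have hlow : s * 17 * 2 ^ e ≤ dd i :=
      Nat.mul_le_mul (Nat.mul_le_mul_left s (by omega)) (hxlo i)
    calc ∑ j, dd j ≤ ∑ _j : Fin 16, s * 32 * (16 * 2 ^ e) := Finset.sum_le_sum (fun j _ => hup j)
      _ = 16 * (s * 32 * (16 * 2 ^ e)) := by simp
      _ ≤ 512 * (s * 17 * 2 ^ e) := by
          have : 16 * (s * 32 * (16 * 2 ^ e)) = 8192 * (s * 2 ^ e) := by ring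
          have h2 : 512 * (s * 17 * 2 ^ e) = 8704 * (s * 2 ^ e) := by ring
          rw [this, h2]
          exact Nat.mul_le_mul_right _ (by norm_num)
      _ ≤ 512 * dd i := Nat.mul_le_mul_left _ hlow
  obtain ⟨S, hS1, hS2, hS3⟩ := trick B g 512 hB (by omega) D hDne hDB hgS hratio
  exact ⟨S, hS1.trans hDcard, hS2, hS3⟩

end Vale.Agent.Lib.P012c.H13
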