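import Vale.Agent.Lib.P012_helper13.LLSchedule

/-!
# P012b: the modulus at scale `i`
-/

namespace Vale.Agent.Lib.P012b

open Finset

theorem exists_spectators (i : ℕ) (hi : 12 ≤ i) : ∃ S ⊆ PP i, S.card = 2 ^ i := by
  apply Finset.exists_subset_card_eq
  have h1 := card_PP_ge i hi
  have hs1 : 1 ≤ 2 ^ i := Nat.one_le_two_pow
  have h5 : 2 ^ i ≤ (2 ^ i) ^ 14 := by
    calc 2 ^ i = (2 ^ i) ^ 1 := (pow_one _).symm
      _ ≤ (2 ^ i) ^ 14 := Nat.pow_le_pow_right hs1 (by norm_num)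
  omega

theorem TT_le (i : ℕ) (hi : 12 ≤ i) :
    ((TT i (i - 7) : ℕ) : ℝ) ≤ 96 * i * (1 + Real.log i) + i := by
  set n := i - 7 with hn
  have hi0 : (0 : ℝ) ≤ 96 * (i : ℝ) := by positivity
  have h1 : ∀ r ∈ range n, ((ss i (6 + r) : ℕ) : ℝ)
      ≤ 96 * i * (((n - 1 - r + 1 : ℕ) : ℝ))⁻¹ + 1 := by
    intro r hr
    have hr' := mem_range.1 hr
    unfold ss
    have e : i - (6 + r) - 1 = n - 1 - r + 1 := by omega
    rw [e]
    push_cast
    have := Nat.cast_div_le (α := ℝ) (m := 96 * i) (n := n - 1 - r + 1)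
    push_cast at this
    rw [div_eq_mul_inv] at this
    linarith
  have h2 : ∑ r ∈ range n, (96 * (i : ℝ) * (((n - 1 - r + 1 : ℕ) : ℝ))⁻¹ + 1)
      = ∑ x ∈ range n, (96 * (i : ℝ) * (((x + 1 : ℕ) : ℝ))⁻¹ + 1) :=
    Finset.sum_range_reflect (fun x => 96 * (i : ℝ) * (((x + 1 : ℕ) : ℝ))⁻¹ + 1) n
  have h3 : ∑ x ∈ range n, (96 * (i : ℝ) * (((x + 1 : ℕ) : ℝ))⁻¹ + 1)
      = 96 * i * (harmonic n : ℝ) + n := by
    rw [Finset.sum_add_distrib, ← Finset.mul_sum]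
    unfold harmonic
    push_cast
    simp
  have h4 := harmonic_le_one_add_log n
  have h5 : Real.log n ≤ Real.log i := by
    apply Real.log_le_log
    · have : 0 < n := by omega
      exact_mod_cast this
    · have : n ≤ i := by omega
      exact_mod_cast this
  have h6 : (n : ℝ) ≤ i := by
    have : n ≤ i := by omega
    exact_mod_cast this
  calc ((TT i n : ℕ) : ℝ) = ∑ r ∈ range n, ((ss i (6 + r) : ℕ) : ℝ) := by
        unfold TT; push_cast; rfl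
    _ ≤ ∑ r ∈ range n, (96 * (i : ℝ) * (((n - 1 - r + 1 : ℕ) : ℝ))⁻¹ + 1) := Finset.sum_le_sum h1
    _ = 96 * i * (harmonic n : ℝ) + n := by rw [h2, h3]
    _ ≤ 96 * i * (1 + Real.log i) + i := by
        have : 96 * (i : ℝ) * (harmonic n : ℝ) ≤ 96 * i * (1 + Real.log i) :=
          mul_le_mul_of_nonneg_left (by linarith) hi0
        linarith

theorem thirtytwo_mul_le (i : ℕ) (hi : 12 ≤ i) : 32 * i ≤ 2 ^ i := by
  induction i, hi using Nat.le_induction with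
  | base => norm_num
  | succ i hi ih => rw [pow_succ]; omega

theorem core (i : ℕ) (hi : 12 ≤ i) :
    ∃ H Z t : ℕ, 2 ≤ Z ∧ Z ≤ 2 ^ 2 ^ (2 * i) ∧ 2 ^ 2 ^ i * Z ^ 2 ≤ H ∧
      (∀ m < H, Rep (H * Z) t m) ∧
      (t : ℝ) ≤ 10 + 9736 * i + 768 * i * Real.log i := by
  obtain ⟨S, hS, hSc⟩ := exists_spectators i hi
  obtain ⟨U, hU, _, hcU, hRep⟩ := St_final i hi S hS hSc
  rw [min_self] at hcU
  set s := 2 ^ i with hs
  have hlow : (2 ^ (8 * i)) ^ s ≤ ∏ p ∈ S, p := by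
    rw [← hSc]
    exact Finset.pow_card_le_prod _ _ _ (fun q hq => (mem_PP (hS hq)).2.1.le)
  have hup : ∏ p ∈ S, p ≤ (2 ^ (16 * i)) ^ s := by
    rw [← hSc]
    exact Finset.prod_le_pow_card _ _ _ (fun q hq => (mem_PP (hS hq)).2.2.1)
  have hs1 : 1 ≤ s := Nat.one_le_two_pow
  have hZup : (∏ p ∈ S, p) ^ 2 ≤ 2 ^ (32 * i * s) := by
    calc (∏ p ∈ S, p) ^ 2 ≤ ((2 ^ (16 * i)) ^ s) ^ 2 := Nat.pow_le_pow_left hup 2
      _ = 2 ^ (32 * i * s) := by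
          rw [← pow_mul, ← pow_mul]; congr 1; ring
  refine ⟨2 ^ (10 + 2048 * i) * ∏ q ∈ U, q, (∏ p ∈ S, p) ^ 2, _, ?_, ?_, ?_, hRep, ?_⟩
  · have h1 : 2 ≤ ∏ p ∈ S, p := by
      refine le_trans ?_ hlow
      rw [← pow_mul]
      calc 2 = 2 ^ 1 := by norm_num
        _ ≤ 2 ^ (8 * i * s) := Nat.pow_le_pow_right (by norm_num) (by
            have : 1 * 1 ≤ (8 * i) * s := Nat.mul_le_mul (by omega) hs1
            omega)
    nlinarith
  · refine hZup.trans (Nat.pow_le_pow_right (by norm_num) ?_)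
    have e : 2 ^ (2 * i) = s * s := by rw [hs, ← pow_add]; congr 1; ring
    rw [e]
    exact Nat.mul_le_mul_right _ (thirtytwo_mul_le i hi)
  · have h1 : ((∏ p ∈ S, p) ^ 2) ^ 2 ≤ 2 ^ (64 * i * s) := by
      calc ((∏ p ∈ S, p) ^ 2) ^ 2 ≤ (2 ^ (32 * i * s)) ^ 2 := Nat.pow_le_pow_left hZup 2
        _ = 2 ^ (64 * i * s) := by rw [← pow_mul]; congr 1; ring
    have h2 : 2 ^ (72 * i * s) ≤ ∏ q ∈ U, q := by
      calc 2 ^ (72 * i * s) = (2 ^ (8 * i)) ^ (9 * s) := by rw [← pow_mul]; congr 1; ring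
        _ ≤ (2 ^ (8 * i)) ^ U.card := Nat.pow_le_pow_right (by positivity) hcU
        _ ≤ ∏ q ∈ U, q := Finset.pow_card_le_prod _ _ _
            (fun q hq => (mem_PP (Finset.sdiff_subset (hU hq))).2.1.le)
    calc 2 ^ s * ((∏ p ∈ S, p) ^ 2) ^ 2 ≤ 2 ^ s * 2 ^ (64 * i * s) := Nat.mul_le_mul_left _ h1
      _ = 2 ^ (s + 64 * i * s) := by rw [pow_add]
      _ ≤ 2 ^ (72 * i * s) := Nat.pow_le_pow_right (by norm_num) (by nlinarith)
      _ ≤ ∏ q ∈ U, q := h2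
      _ ≤ 2 ^ (10 + 2048 * i) * ∏ q ∈ U, q := Nat.le_mul_of_pos_left _ (by positivity)
  · have h1 := TT_le i hi
    push_cast
    nlinarith

end Vale.Agent.Lib.P012b
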