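import Vale.Agent.Lib.P012_helper13.LLDefs

/-!
# P012b, module X: the recursion step for `Rep`
-/

namespace Vale.Agent.Lib.P012b

open Finset

theorem Rep.mono {N N' t t' m : ℕ} (h : Rep N t m) (hN : N ∣ N') (hN' : N' ≠ 0) (ht : t ≤ t') :
    Rep N' t' m := by
  obtain ⟨D, hD, hc, hs⟩ := h
  refine ⟨D, fun d hd => ?_, hc.trans ht, hs⟩
  have := Nat.mem_divisors.1 (hD hd)
  exact Nat.mem_divisors.2 ⟨this.1.trans hN, hN'⟩

/-- a product of distinct primes divides an integer as soon as each of them does. -/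
theorem prod_primes_dvd_int (Q : Finset ℕ) (hQp : ∀ q ∈ Q, q.Prime) (z : ℤ)
    (hz : ∀ q ∈ Q, (q : ℤ) ∣ z) : ((∏ q ∈ Q, q : ℕ) : ℤ) ∣ z := by
  have h1 : ∀ q ∈ Q, q ∣ z.natAbs := fun q hq => Int.natCast_dvd.1 (hz q hq)
  have h2 : ∏ q ∈ Q, q ∣ z.natAbs := by
    apply Finset.prod_primes_dvd
    · intro q hq
      exact (hQp q hq).prime
    · exact h1
  exact Int.natCast_dvd.2 h2

theorem extend (N H t : ℕ) (hRep : ∀ m < H, Rep N t m)
    (A B Q : Finset ℕ) (u : Fin 8 → ℕ)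
    (hdvd : ∀ i, ∀ a ∈ A, ∀ b ∈ B, u i * a * b ∣ N)
    (hsize : ∀ i, ∀ a ∈ A, ∀ b ∈ B, 8 * (u i * a * b) ≤ H)
    (hdist : ∀ i j, i ≠ j → ∀ a ∈ A, ∀ b ∈ B, ∀ a' ∈ A, ∀ b' ∈ B, u i * a * b ≠ u j * a' * b')
    (hQp : ∀ q ∈ Q, q.Prime) (hQN : ∀ q ∈ Q, ¬ q ∣ N) (hQne : Q.Nonempty)
    (hcov : ∀ m : ℤ, ∃ f : Fin 8 → ℕ × ℕ, (∀ i, (f i).1 ∈ A ∧ (f i).2 ∈ B) ∧
      ∀ q ∈ Q, (q : ℤ) ∣ m - ∑ i, ((u i * (f i).1 * (f i).2 : ℕ) : ℤ)) :
    ∀ m < H * ∏ q ∈ Q, q, Rep (N * ∏ q ∈ Q, q) (t + 8) m := by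
  intro m hm
  set M := ∏ q ∈ Q, q with hM
  have hMpos : 0 < M := Finset.prod_pos (fun q hq => (hQp q hq).pos)
  obtain ⟨q0, hq0⟩ := hQne
  have hN0 : N ≠ 0 := by
    intro h
    exact hQN q0 hq0 (h ▸ dvd_zero q0)
  have hNM0 : N * M ≠ 0 := Nat.mul_ne_zero hN0 hMpos.ne'
  by_cases hsmall : m < H
  · exact (hRep m hsmall).mono (dvd_mul_right _ _) hNM0 (by omega)
  push Not at hsmall
  obtain ⟨f, hf, hq⟩ := hcov (m : ℤ)
  set term : Fin 8 → ℕ := fun i => u i * (f i).1 * (f i).2 with hterm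
  set r := ∑ i, term i with hr
  have hr8 : 8 * r ≤ 8 * H := by
    rw [hr, Finset.mul_sum]
    calc ∑ i : Fin 8, 8 * term i ≤ ∑ _i : Fin 8, H :=
          Finset.sum_le_sum (fun i _ => hsize i _ (hf i).1 _ (hf i).2)
      _ = 8 * H := by simp
  have hrH : r ≤ H := by omega
  have hrm : r ≤ m := hrH.trans hsmall
  have hdv : (M : ℤ) ∣ (m : ℤ) - (r : ℤ) := by
    have h0 := prod_primes_dvd_int Q hQp _ hq
    rw [← hM] at h0
    have h1 : ((r : ℕ) : ℤ) = ∑ i, ((u i * (f i).1 * (f i).2 : ℕ) : ℤ) := by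
      rw [hr]
      push_cast
      rfl
    rw [h1]
    exact h0
  have hdvN : M ∣ m - r := by
    have h1 : ((m - r : ℕ) : ℤ) = (m : ℤ) - (r : ℤ) := by
      push_cast [Nat.cast_sub hrm]; ring
    rw [← h1] at hdv
    exact_mod_cast hdv
  obtain ⟨m', hm'⟩ := hdvN
  have hm'H : m' < H := by
    by_contra hcon
    push Not at hcon
    have : H * M ≤ m' * M := Nat.mul_le_mul_right M hcon
    have h2 : m - r = m' * M := by rw [hm', mul_comm]
    omega
  obtain ⟨D', hD', hc', hs'⟩ := hRep m' hm'H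
  have hinj : Function.Injective term := by
    intro i j hij
    by_contra hne
    exact hdist i j hne _ (hf i).1 _ (hf i).2 _ (hf j).1 _ (hf j).2 hij
  have hinjM : Function.Injective (fun d : ℕ => d * M) := fun a b hab =>
    Nat.eq_of_mul_eq_mul_right hMpos hab
  have hdisj : Disjoint (D'.image (fun d => d * M)) (univ.image term) := by
    rw [Finset.disjoint_left]
    intro x hx1 hx2
    obtain ⟨d, _, rfl⟩ := Finset.mem_image.1 hx1
    obtain ⟨i, _, hi⟩ := Finset.mem_image.1 hx2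
    have h1 : q0 ∣ d * M := (Finset.dvd_prod_of_mem (fun q => q) hq0).mul_left d
    rw [← hi] at h1
    exact hQN q0 hq0 (h1.trans (hdvd i _ (hf i).1 _ (hf i).2))
  refine ⟨D'.image (fun d => d * M) ∪ univ.image term, ?_, ?_, ?_⟩
  · intro x hx
    rw [Nat.mem_divisors]
    refine ⟨?_, hNM0⟩
    rcases Finset.mem_union.1 hx with hx | hx
    · obtain ⟨d, hd, rfl⟩ := Finset.mem_image.1 hx
      exact Nat.mul_dvd_mul_right (Nat.mem_divisors.1 (hD' hd)).1 M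
    · obtain ⟨i, _, rfl⟩ := Finset.mem_image.1 hx
      exact (hdvd i _ (hf i).1 _ (hf i).2).trans (dvd_mul_right _ _)
  · calc (D'.image (fun d => d * M) ∪ univ.image term).card
        ≤ (D'.image (fun d => d * M)).card + (univ.image term).card := card_union_le _ _
      _ ≤ D'.card + (univ : Finset (Fin 8)).card := Nat.add_le_add card_image_le card_image_le
      _ ≤ t + 8 := by simpa using hc'
  · rw [Finset.sum_union hdisj, Finset.sum_image (fun a _ b _ h => hinjM h),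
      Finset.sum_image (fun a _ b _ h => hinj h), ← Finset.sum_mul, hs', ← hr]
    have h2 : m - r = m' * M := by rw [hm', mul_comm]
    omega

end Vale.Agent.Lib.P012b
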