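import Vale.Agent.Lib.P012_helper13.LLExpSum
import Vale.Agent.Lib.P012_helper13.LLExtend

/-!
# P012b, module C: the covering lemma
-/

namespace Vale.Agent.Lib.P012b

open Finset

theorem energy_prod_eq (Q' A : Finset ℕ) (hQp : ∀ q ∈ Q', q.Prime) :
    energy (∏ q ∈ Q', q) A = A.card + coll Q' A := by
  unfold energy coll
  rw [← Finset.diag_union_offDiag, Finset.filter_union,
    Finset.card_union_of_disjoint
      (Finset.disjoint_filter_filter (Finset.disjoint_diag_offDiag A))]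
  congr 1
  · rw [Finset.filter_true_of_mem, Finset.diag_card]
    intro p hp
    rw [Finset.mem_diag] at hp
    rw [hp.2]
    simp
  · congr 1
    apply Finset.filter_congr
    intro p _
    constructor
    · intro h q hq
      refine dvd_trans ?_ h
      exact_mod_cast Finset.dvd_prod_of_mem (fun q => q) hq
    · intro h
      exact prod_primes_dvd_int Q' hQp _ h

/-- the bound for one bilinear sum at a nonzero frequency. -/
theorem cover_T_bound (A B Q : Finset ℕ) (u : ℕ) (n Y θ : ℕ)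
    (hA : A.card = n) (hB : B.card = n)
    (hQp : ∀ q ∈ Q, q.Prime) (hQY : ∀ q ∈ Q, q ≤ Y) (hu : ∀ q ∈ Q, ¬ q ∣ u)
    (hE : ∀ Q' ⊆ Q, coll Q' A * θ ^ Q'.card ≤ 6 * n ^ 2 ∧ coll Q' B * θ ^ Q'.card ≤ 6 * n ^ 2)
    (hθ : 1 ≤ θ) (hθn : θ ^ Q.card ≤ n) (s : ℕ) :
    ‖∑ p ∈ A ×ˢ B, ee ((((s : ℤ) * ((u * p.1 * p.2 : ℕ) : ℤ) : ℤ) : ℝ)
        / ((∏ q ∈ Q, q : ℕ) : ℝ))‖ ^ 2 * ((θ : ℝ) ^ (Q.filter (fun q => ¬ q ∣ s)).card) ^ 2
      ≤ 49 * (n : ℝ) ^ 4 * (Y : ℝ) ^ (Q.filter (fun q => ¬ q ∣ s)).card := by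
  set Qs := Q.filter (fun q => ¬ q ∣ s) with hQs
  set Qd := Q.filter (fun q => q ∣ s) with hQd
  set M' := ∏ q ∈ Qs, q with hM'
  set G := ∏ q ∈ Qd, q with hG
  set j := Qs.card with hj
  have hQsQ : Qs ⊆ Q := Finset.filter_subset _ _
  have hM : ∏ q ∈ Q, q = G * M' := (Finset.prod_filter_mul_prod_filter_not Q _ _).symm
  have hM'pos : 0 < M' := Finset.prod_pos (fun q hq => (hQp q (hQsQ hq)).pos)
  have hGpos : 0 < G := Finset.prod_pos (fun q hq => (hQp q (Finset.filter_subset _ _ hq)).pos)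
  have hGs : G ∣ s := by
    apply Finset.prod_primes_dvd
    · intro q hq
      exact (hQp q (Finset.filter_subset _ _ hq)).prime
    · intro q hq
      exact (Finset.mem_filter.1 hq).2
  obtain ⟨σ, hσ⟩ := hGs
  have hcop : Nat.Coprime (σ * u) M' := by
    apply Nat.Coprime.prod_right
    intro q hq
    have hq' := Finset.mem_filter.1 hq
    have hqp := hQp q hq'.1
    rw [Nat.coprime_comm, Nat.Prime.coprime_iff_not_dvd hqp, Nat.Prime.dvd_mul hqp]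
    rintro (h | h)
    · exact hq'.2 (hσ ▸ h.mul_left G)
    · exact hu q hq'.1 h
  have hcopZ : IsCoprime ((σ * u : ℕ) : ℤ) (M' : ℤ) := Nat.isCoprime_iff_coprime.2 hcop
  have hrew : ∑ p ∈ A ×ˢ B, ee ((((s : ℤ) * ((u * p.1 * p.2 : ℕ) : ℤ) : ℤ) : ℝ)
        / ((∏ q ∈ Q, q : ℕ) : ℝ))
      = ∑ a ∈ A, ∑ b ∈ B, ee (((((σ * u : ℕ) : ℤ) * (a : ℤ) * (b : ℤ) : ℤ) : ℝ) / (M' : ℝ)) := by
    rw [Finset.sum_product]
    refine Finset.sum_congr rfl (fun a _ => Finset.sum_congr rfl (fun b _ => ?_))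
    congr 1
    rw [hM, hσ]
    have h1 : (G : ℝ) ≠ 0 := by exact_mod_cast hGpos.ne'
    have h2 : (M' : ℝ) ≠ 0 := by exact_mod_cast hM'pos.ne'
    push_cast
    field_simp
  rw [hrew]
  have hbil := bilinear_bound M' hM'pos _ hcopZ A B
  have hθj : θ ^ j ≤ n := (Nat.pow_le_pow_right hθ (Finset.card_le_card hQsQ)).trans hθn
  have hEA : energy M' A * θ ^ j ≤ 7 * n ^ 2 := by
    rw [hM', energy_prod_eq Qs A (fun q hq => hQp q (hQsQ hq)), hA, add_mul]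
    have h1 := (hE Qs hQsQ).1
    have h2 : n * θ ^ j ≤ n * n := Nat.mul_le_mul_left n hθj
    nlinarith
  have hEB : energy M' B * θ ^ j ≤ 7 * n ^ 2 := by
    rw [hM', energy_prod_eq Qs B (fun q hq => hQp q (hQsQ hq)), hB, add_mul]
    have h1 := (hE Qs hQsQ).2
    have h2 : n * θ ^ j ≤ n * n := Nat.mul_le_mul_left n hθj
    nlinarith
  have hM'Y : M' ≤ Y ^ j := Finset.prod_le_pow_card _ _ _ (fun q hq => hQY q (hQsQ hq))
  have hEA' : (energy M' A : ℝ) * (θ : ℝ) ^ j ≤ 7 * (n : ℝ) ^ 2 := by exact_mod_cast hEA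
  have hEB' : (energy M' B : ℝ) * (θ : ℝ) ^ j ≤ 7 * (n : ℝ) ^ 2 := by exact_mod_cast hEB
  have hM'Y' : (M' : ℝ) ≤ (Y : ℝ) ^ j := by exact_mod_cast hM'Y
  have hθpos : (0 : ℝ) ≤ (θ : ℝ) ^ j := by positivity
  calc ‖∑ a ∈ A, ∑ b ∈ B, ee (((((σ * u : ℕ) : ℤ) * (a : ℤ) * (b : ℤ) : ℤ) : ℝ) / (M' : ℝ))‖ ^ 2
        * ((θ : ℝ) ^ j) ^ 2
      ≤ ((M' : ℝ) * energy M' A * energy M' B) * ((θ : ℝ) ^ j) ^ 2 :=
        mul_le_mul_of_nonneg_right hbil (by positivity)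
    _ = (M' : ℝ) * ((energy M' A * (θ : ℝ) ^ j) * (energy M' B * (θ : ℝ) ^ j)) := by ring
    _ ≤ (Y : ℝ) ^ j * ((7 * (n : ℝ) ^ 2) * (7 * (n : ℝ) ^ 2)) := by
        apply mul_le_mul hM'Y' _ (by positivity) (by positivity)
        exact mul_le_mul hEA' hEB' (by positivity) (by positivity)
    _ = 49 * (n : ℝ) ^ 4 * (Y : ℝ) ^ j := by ring

/-- the bound for the product of the eight bilinear sums at a frequency `s`. -/
theorem cover_prod_bound (A B Q : Finset ℕ) (u : Fin 8 → ℕ) (n Y θ : ℕ)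
    (hA : A.card = n) (hB : B.card = n)
    (hQp : ∀ q ∈ Q, q.Prime) (hQY : ∀ q ∈ Q, q ≤ Y) (hu : ∀ q ∈ Q, ∀ i, ¬ q ∣ u i)
    (hE : ∀ Q' ⊆ Q, coll Q' A * θ ^ Q'.card ≤ 6 * n ^ 2 ∧ coll Q' B * θ ^ Q'.card ≤ 6 * n ^ 2)
    (hθ : 1 ≤ θ) (hθn : θ ^ Q.card ≤ n) (hYθ : Y ^ 3 ≤ θ ^ 4) (hY0 : 0 < Y) (s : ℕ) :
    (∏ i : Fin 8, ‖∑ p ∈ A ×ˢ B, ee ((((s : ℤ) * ((u i * p.1 * p.2 : ℕ) : ℤ) : ℤ) : ℝ)
        / ((∏ q ∈ Q, q : ℕ) : ℝ))‖) * ((Y : ℝ) ^ (Q.filter (fun q => ¬ q ∣ s)).card) ^ 2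
      ≤ 7 ^ 8 * (n : ℝ) ^ 16 := by
  set j := (Q.filter (fun q => ¬ q ∣ s)).card with hj
  set x : Fin 8 → ℝ := fun i => ‖∑ p ∈ A ×ˢ B,
    ee ((((s : ℤ) * ((u i * p.1 * p.2 : ℕ) : ℤ) : ℤ) : ℝ) / ((∏ q ∈ Q, q : ℕ) : ℝ))‖ with hx
  have hx0 : ∀ i, 0 ≤ x i := fun i => norm_nonneg _
  have hxi : ∀ i, x i ^ 2 * ((θ : ℝ) ^ j) ^ 2 ≤ 49 * (n : ℝ) ^ 4 * (Y : ℝ) ^ j := fun i =>
    cover_T_bound A B Q (u i) n Y θ hA hB hQp hQY (fun q hq => hu q hq i) hE hθ hθn s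
  set P := ∏ i, x i with hP
  have hP0 : 0 ≤ P := Finset.prod_nonneg (fun i _ => hx0 i)
  have h1 : P ^ 2 * (((θ : ℝ) ^ j) ^ 2) ^ 8 ≤ (49 * (n : ℝ) ^ 4 * (Y : ℝ) ^ j) ^ 8 := by
    have h := Finset.prod_le_prod (s := (univ : Finset (Fin 8)))
      (f := fun i => x i ^ 2 * ((θ : ℝ) ^ j) ^ 2) (g := fun _ => 49 * (n : ℝ) ^ 4 * (Y : ℝ) ^ j)
      (fun i _ => by positivity) (fun i _ => hxi i)
    rw [Finset.prod_mul_distrib, Finset.prod_pow, Finset.prod_const, Finset.prod_const] at h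
    simpa using h
  have hYθ' : ((Y : ℝ) ^ j) ^ 12 ≤ (((θ : ℝ) ^ j) ^ 2) ^ 8 := by
    have h3 : (Y : ℝ) ^ 3 ≤ (θ : ℝ) ^ 4 := by exact_mod_cast hYθ
    calc ((Y : ℝ) ^ j) ^ 12 = ((Y : ℝ) ^ 3) ^ (4 * j) := by
          rw [← pow_mul, ← pow_mul]; congr 1; ring
      _ ≤ ((θ : ℝ) ^ 4) ^ (4 * j) := pow_le_pow_left₀ (by positivity) h3 _
      _ = (((θ : ℝ) ^ j) ^ 2) ^ 8 := by
          rw [← pow_mul, ← pow_mul, ← pow_mul]; congr 1; ring
  have hYpos : (0 : ℝ) < (Y : ℝ) ^ j := by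
    have : (0 : ℝ) < Y := by exact_mod_cast hY0
    positivity
  have h2 : P ^ 2 * ((Y : ℝ) ^ j) ^ 12 ≤ (49 * (n : ℝ) ^ 4 * (Y : ℝ) ^ j) ^ 8 :=
    (mul_le_mul_of_nonneg_left hYθ' (by positivity)).trans h1
  have h3 : (P * ((Y : ℝ) ^ j) ^ 2) ^ 2 * ((Y : ℝ) ^ j) ^ 8
      ≤ (7 ^ 8 * (n : ℝ) ^ 16) ^ 2 * ((Y : ℝ) ^ j) ^ 8 := by
    calc (P * ((Y : ℝ) ^ j) ^ 2) ^ 2 * ((Y : ℝ) ^ j) ^ 8 = P ^ 2 * ((Y : ℝ) ^ j) ^ 12 := by ring
      _ ≤ (49 * (n : ℝ) ^ 4 * (Y : ℝ) ^ j) ^ 8 := h2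
      _ = (7 ^ 8 * (n : ℝ) ^ 16) ^ 2 * ((Y : ℝ) ^ j) ^ 8 := by ring
  have h4 : (P * ((Y : ℝ) ^ j) ^ 2) ^ 2 ≤ (7 ^ 8 * (n : ℝ) ^ 16) ^ 2 :=
    le_of_mul_le_mul_right h3 (by positivity)
  exact (pow_le_pow_iff_left₀ (by positivity) (by positivity) (by norm_num)).1 h4

/-- the number of frequencies with a given set of primes not dividing them. -/
theorem cover_fiber_card (Q Q' : Finset ℕ) (hQp : ∀ q ∈ Q, q.Prime) (hQ' : Q' ⊆ Q) :
    ((range (∏ q ∈ Q, q)).filter (fun s => Q.filter (fun q => ¬ q ∣ s) = Q')).card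
      ≤ ∏ q ∈ Q', q := by
  set G := ∏ q ∈ Q \ Q', q with hG
  have hM : ∏ q ∈ Q, q = G * ∏ q ∈ Q', q := (Finset.prod_sdiff hQ').symm
  have hGpos : 0 < G := Finset.prod_pos (fun q hq => (hQp q (Finset.sdiff_subset hq)).pos)
  have hdv : ∀ s ∈ (range (∏ q ∈ Q, q)).filter (fun s => Q.filter (fun q => ¬ q ∣ s) = Q'),
      G ∣ s := by
    intro s hs
    have hs2 := (Finset.mem_filter.1 hs).2
    apply Finset.prod_primes_dvd
    · intro q hq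
      exact (hQp q (Finset.sdiff_subset hq)).prime
    · intro q hq
      rw [Finset.mem_sdiff] at hq
      by_contra hcon
      apply hq.2
      rw [← hs2]
      exact Finset.mem_filter.2 ⟨hq.1, hcon⟩
  rw [← Finset.card_range (∏ q ∈ Q', q)]
  apply Finset.card_le_card_of_injOn (fun s => s / G)
  · intro s hs
    have hs1 := Finset.mem_range.1 (Finset.mem_filter.1 hs).1
    rw [Finset.coe_range, Set.mem_Iio]
    apply Nat.div_lt_of_lt_mul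
    rw [← hM]
    exact hs1
  · intro s hs s' hs' h
    have h1 := Nat.mul_div_cancel' (hdv s hs)
    have h2 := Nat.mul_div_cancel' (hdv s' hs')
    simp only at h
    rw [← h1, ← h2, h]

theorem one_add_pow_le (x : ℝ) (hx : 0 ≤ x) (k : ℕ) (hk : 2 * k * x ≤ 1) :
    (1 + x) ^ k ≤ 1 + 2 * k * x := by
  induction k with
  | zero => simp
  | succ k ih =>
    have hk' : 2 * (k : ℝ) * x ≤ 1 := by
      push_cast at hk
      nlinarith
    have h := ih hk'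
    rw [pow_succ]
    push_cast
    have h1 : (1 + x) ^ k * (1 + x) ≤ (1 + 2 * k * x) * (1 + x) :=
      mul_le_mul_of_nonneg_right h (by linarith)
    nlinarith

/-- the total contribution of the nonzero frequencies. -/
theorem cover_error (A B Q : Finset ℕ) (u : Fin 8 → ℕ) (n Y θ : ℕ)
    (hA : A.card = n) (hB : B.card = n)
    (hQp : ∀ q ∈ Q, q.Prime) (hQY : ∀ q ∈ Q, q ≤ Y) (hu : ∀ q ∈ Q, ∀ i, ¬ q ∣ u i)
    (hE : ∀ Q' ⊆ Q, coll Q' A * θ ^ Q'.card ≤ 6 * n ^ 2 ∧ coll Q' B * θ ^ Q'.card ≤ 6 * n ^ 2)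
    (hθ : 1 ≤ θ) (hθn : θ ^ Q.card ≤ n) (hYθ : Y ^ 3 ≤ θ ^ 4) (hY : 2 * 7 ^ 8 * Q.card < Y) :
    ∑ s ∈ (range (∏ q ∈ Q, q)).erase 0,
      (∏ i : Fin 8, ‖∑ p ∈ A ×ˢ B, ee ((((s : ℤ) * ((u i * p.1 * p.2 : ℕ) : ℤ) : ℤ) : ℝ)
        / ((∏ q ∈ Q, q : ℕ) : ℝ))‖) < (n : ℝ) ^ 16 := by
  have hY0 : 0 < Y := by omega
  have hYr : (0 : ℝ) < Y := by exact_mod_cast hY0
  have hn1 : 1 ≤ n := (Nat.one_le_pow _ _ hθ).trans hθn
  have hnr : (0 : ℝ) < (n : ℝ) ^ 16 := by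
    have : (0 : ℝ) < n := by exact_mod_cast hn1
    positivity
  set M := ∏ q ∈ Q, q with hM
  set C : ℝ := 7 ^ 8 * (n : ℝ) ^ 16 with hC
  set Qs : ℕ → Finset ℕ := fun s => Q.filter (fun q => ¬ q ∣ s) with hQs
  set g : Finset ℕ → ℝ := fun Q' => C / ((Y : ℝ) ^ Q'.card) ^ 2 with hg
  have hstep1 : ∀ s : ℕ, (∏ i : Fin 8, ‖∑ p ∈ A ×ˢ B,
      ee ((((s : ℤ) * ((u i * p.1 * p.2 : ℕ) : ℤ) : ℤ) : ℝ) / ((M : ℕ) : ℝ))‖) ≤ g (Qs s) := by
    intro s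
    simp only [hg]
    rw [le_div_iff₀ (by positivity)]
    exact cover_prod_bound A B Q u n Y θ hA hB hQp hQY hu hE hθ hθn hYθ hY0 s
  have hmaps : ∀ s ∈ (range M).erase 0, Qs s ∈ Q.powerset.erase ∅ := by
    intro s hs
    rw [Finset.mem_erase, Finset.mem_range] at hs
    rw [Finset.mem_erase, Finset.mem_powerset]
    refine ⟨?_, Finset.filter_subset _ _⟩
    intro hemp
    have hall : ∀ q ∈ Q, q ∣ s := by
      intro q hq
      by_contra hcon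
      have : q ∈ Qs s := Finset.mem_filter.2 ⟨hq, hcon⟩
      rw [hemp] at this
      simp at this
    have hMs : M ∣ s := Finset.prod_primes_dvd s (fun q hq => (hQp q hq).prime) hall
    have := Nat.le_of_dvd (Nat.pos_of_ne_zero hs.1) hMs
    omega
  calc ∑ s ∈ (range M).erase 0, (∏ i : Fin 8, ‖∑ p ∈ A ×ˢ B,
        ee ((((s : ℤ) * ((u i * p.1 * p.2 : ℕ) : ℤ) : ℤ) : ℝ) / ((M : ℕ) : ℝ))‖)
      ≤ ∑ s ∈ (range M).erase 0, g (Qs s) := Finset.sum_le_sum (fun s _ => hstep1 s)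
    _ = ∑ Q' ∈ Q.powerset.erase ∅, ∑ s ∈ (range M).erase 0 with Qs s = Q', g (Qs s) :=
        (Finset.sum_fiberwise_of_maps_to hmaps _).symm
    _ ≤ ∑ Q' ∈ Q.powerset.erase ∅, C * (1 / (Y : ℝ)) ^ Q'.card := by
        apply Finset.sum_le_sum
        intro Q' hQ'
        have hQ'Q : Q' ⊆ Q := Finset.mem_powerset.1 (Finset.mem_of_mem_erase hQ')
        rw [Finset.sum_congr rfl (g := fun _ => g Q')
          (fun s hs => by rw [(Finset.mem_filter.1 hs).2]), Finset.sum_const, nsmul_eq_mul]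
        have hcard : (((range M).erase 0).filter (fun s => Qs s = Q')).card ≤ Y ^ Q'.card := by
          calc (((range M).erase 0).filter (fun s => Qs s = Q')).card
              ≤ ((range M).filter (fun s => Qs s = Q')).card :=
                Finset.card_le_card (Finset.filter_subset_filter _ (Finset.erase_subset _ _))
            _ ≤ ∏ q ∈ Q', q := cover_fiber_card Q Q' hQp hQ'Q
            _ ≤ Y ^ Q'.card := Finset.prod_le_pow_card _ _ _ (fun q hq => hQY q (hQ'Q hq))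
        have hcard' : ((((range M).erase 0).filter (fun s => Qs s = Q')).card : ℝ)
            ≤ (Y : ℝ) ^ Q'.card := by exact_mod_cast hcard
        have hg0 : 0 ≤ g Q' := by simp only [hg]; positivity
        calc ((((range M).erase 0).filter (fun s => Qs s = Q')).card : ℝ) * g Q'
            ≤ (Y : ℝ) ^ Q'.card * g Q' := mul_le_mul_of_nonneg_right hcard' hg0
          _ = C * (1 / (Y : ℝ)) ^ Q'.card := by
              simp only [hg]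
              rw [one_div, inv_pow]
              field_simp
    _ = C * ((1 + 1 / (Y : ℝ)) ^ Q.card - 1) := by
        rw [← Finset.mul_sum]
        congr 1
        have h1 := Finset.sum_pow_mul_eq_add_pow (1 / (Y : ℝ)) 1 Q
        simp only [one_pow, mul_one] at h1
        rw [add_comm, ← h1, ← Finset.add_sum_erase _ _ (Finset.empty_mem_powerset Q)]
        simp
    _ ≤ C * (2 * Q.card * (1 / (Y : ℝ))) := by
        apply mul_le_mul_of_nonneg_left _ (by positivity)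
        have hk : 2 * (Q.card : ℝ) * (1 / (Y : ℝ)) ≤ 1 := by
          rw [mul_one_div, div_le_one hYr]
          have : 2 * Q.card ≤ Y := by omega
          exact_mod_cast this
        have := one_add_pow_le (1 / (Y : ℝ)) (by positivity) Q.card hk
        linarith
    _ < (n : ℝ) ^ 16 := by
        have h1 : (2 * 7 ^ 8 * (Q.card : ℝ)) < Y := by exact_mod_cast hY
        have h2 : C * (2 * Q.card * (1 / (Y : ℝ))) = (n : ℝ) ^ 16 * ((2 * 7 ^ 8 * (Q.card : ℝ)) / Y) := by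
          simp only [hC]; ring
        rw [h2]
        have h3 : (2 * 7 ^ 8 * (Q.card : ℝ)) / Y < 1 := (div_lt_one hYr).2 h1
        nlinarith

theorem cover (A B Q : Finset ℕ) (u : Fin 8 → ℕ) (n Y θ : ℕ)
    (hA : A.card = n) (hB : B.card = n)
    (hQp : ∀ q ∈ Q, q.Prime) (hQY : ∀ q ∈ Q, q ≤ Y) (hu : ∀ q ∈ Q, ∀ i, ¬ q ∣ u i)
    (hE : ∀ Q' ⊆ Q, coll Q' A * θ ^ Q'.card ≤ 6 * n ^ 2 ∧ coll Q' B * θ ^ Q'.card ≤ 6 * n ^ 2)
    (hθ : 1 ≤ θ) (hθn : θ ^ Q.card ≤ n) (hYθ : Y ^ 3 ≤ θ ^ 4) (hY : 2 * 7 ^ 8 * Q.card < Y)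
    (m : ℤ) :
    ∃ f : Fin 8 → ℕ × ℕ, (∀ i, (f i).1 ∈ A ∧ (f i).2 ∈ B) ∧
      ∀ q ∈ Q, (q : ℤ) ∣ m - ∑ i, ((u i * (f i).1 * (f i).2 : ℕ) : ℤ) := by
  by_contra hcon
  push Not at hcon
  set M := ∏ q ∈ Q, q with hM
  have hMpos : 0 < M := Finset.prod_pos (fun q hq => (hQp q hq).pos)
  set T : ℕ → Fin 8 → ℂ := fun s i => ∑ p ∈ A ×ˢ B,
    ee ((((s : ℤ) * ((u i * p.1 * p.2 : ℕ) : ℤ) : ℤ) : ℝ) / ((M : ℕ) : ℝ)) with hT
  set F := Fintype.piFinset (fun _ : Fin 8 => A ×ˢ B) with hF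
  set val : (Fin 8 → ℕ × ℕ) → ℤ := fun f => ∑ i, ((u i * (f i).1 * (f i).2 : ℕ) : ℤ) with hval
  -- no solution
  have hno : ∀ f ∈ F, ¬ (M : ℤ) ∣ val f - m := by
    intro f hf hdv
    rw [hF, Fintype.mem_piFinset] at hf
    obtain ⟨q, hq, hqn⟩ := hcon f (fun i => Finset.mem_product.1 (hf i))
    apply hqn
    have h1 : (q : ℤ) ∣ (M : ℤ) := by exact_mod_cast Finset.dvd_prod_of_mem (fun q => q) hq
    have h2 := h1.trans hdv
    have h3 : m - val f = -(val f - m) := by ring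
    show (q : ℤ) ∣ m - val f
    rw [h3]
    exact (dvd_neg).2 h2
  -- the counting identity
  have hid : ∑ s ∈ range M, ee ((((s : ℤ) * (-m) : ℤ) : ℝ) / (M : ℝ)) * ∏ i, T s i = 0 := by
    have h1 : ∀ s : ℕ, ee ((((s : ℤ) * (-m) : ℤ) : ℝ) / (M : ℝ)) * ∏ i, T s i
        = ∑ f ∈ F, ee ((((s : ℤ) * (val f - m) : ℤ) : ℝ) / (M : ℝ)) := by
      intro s
      simp only [hT]
      rw [Finset.prod_univ_sum, Finset.mul_sum]
      refine Finset.sum_congr rfl (fun f _ => ?_)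
      rw [← ee_sum, ← ee_add]
      congr 1
      simp only [hval]
      rw [← Finset.sum_div, ← add_div]
      congr 1
      push_cast
      rw [← Finset.mul_sum]
      ring
    simp_rw [h1]
    rw [Finset.sum_comm]
    apply Finset.sum_eq_zero
    intro f hf
    rw [sum_ee_range M hMpos, if_neg (hno f hf)]
  have hT0 : ∀ i, T 0 i = (n : ℂ) ^ 2 := by
    intro i
    simp only [hT]
    simp [ee_zero, hA, hB, sq]
  rw [← Finset.add_sum_erase _ _ (Finset.mem_range.2 hMpos)] at hid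
  have hfirst : ee ((((0 : ℕ) : ℤ) * (-m) : ℤ) / (M : ℝ)) * ∏ i, T 0 i = (n : ℂ) ^ 16 := by
    simp only [hT0]
    simp [ee_zero]
    ring
  rw [hfirst] at hid
  have herr := cover_error A B Q u n Y θ hA hB hQp hQY hu hE hθ hθn hYθ hY
  have hnorm : ‖∑ s ∈ (range M).erase 0,
      ee ((((s : ℤ) * (-m) : ℤ) : ℝ) / (M : ℝ)) * ∏ i, T s i‖ < (n : ℝ) ^ 16 := by
    refine lt_of_le_of_lt ((norm_sum_le _ _).trans (le_of_eq ?_)) herr
    refine Finset.sum_congr rfl (fun s _ => ?_)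
    rw [norm_mul, norm_ee, one_mul, norm_prod]
  have h2 : ∑ s ∈ (range M).erase 0,
      ee ((((s : ℤ) * (-m) : ℤ) : ℝ) / (M : ℝ)) * ∏ i, T s i = -((n : ℂ) ^ 16) := by
    linear_combination hid
  rw [h2, norm_neg, norm_pow, Complex.norm_natCast] at hnorm
  exact lt_irrefl _ hnorm

end Vale.Agent.Lib.P012b
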