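import Mathlib

/-!
# P012, second bound: common definitions

Definitions used in the proof of `N(b) ≪ log log b * log log log b`.
-/

namespace Vale.Agent.Lib.P012b

open Finset

/-- `ee x = exp (2 pi i x)`. -/
noncomputable def ee (x : ℝ) : ℂ := Complex.exp (2 * Real.pi * Complex.I * x)

/-- number of ordered pairs of `A` (diagonal included) that are congruent mod `M`. -/
def energy (M : ℕ) (A : Finset ℕ) : ℕ :=
  ((A ×ˢ A).filter (fun p => (M : ℤ) ∣ (p.1 : ℤ) - (p.2 : ℤ))).card

/-- number of ordered off-diagonal pairs of `A` whose difference is divisible by every `q ∈ Q`. -/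
def coll (Q : Finset ℕ) (A : Finset ℕ) : ℕ :=
  (A.offDiag.filter (fun p => ∀ q ∈ Q, (q : ℤ) ∣ (p.1 : ℤ) - (p.2 : ℤ))).card

/-- `m` is a sum of at most `t` distinct divisors of `N`. -/
def Rep (N t m : ℕ) : Prop :=
  ∃ D : Finset ℕ, D ⊆ N.divisors ∧ D.card ≤ t ∧ ∑ d ∈ D, d = m

end Vale.Agent.Lib.P012b
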