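import Vale.Agent.Lib.P012_helper13.LLDefs

/-!
# P012b, module A: exponential sums
-/

namespace Vale.Agent.Lib.P012b

open Finset

theorem ee_add (x y : ℝ) : ee (x + y) = ee x * ee y := by
  unfold ee
  rw [← Complex.exp_add]
  congr 1
  push_cast
  ring

theorem ee_zero : ee 0 = 1 := by
  unfold ee
  simp

theorem ee_int (n : ℤ) : ee (n : ℝ) = 1 := by
  unfold ee
  rw [Complex.exp_eq_one_iff]
  exact ⟨n, by push_cast; ring⟩

theorem norm_ee (x : ℝ) : ‖ee x‖ = 1 := by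
  unfold ee
  have : (2 * (Real.pi : ℂ) * Complex.I * (x : ℂ)) = ((2 * Real.pi * x : ℝ) : ℂ) * Complex.I := by
    push_cast; ring
  rw [this, Complex.norm_exp_ofReal_mul_I]

theorem ee_neg (x : ℝ) : ee (-x) = (starRingEnd ℂ) (ee x) := by
  unfold ee
  rw [← Complex.exp_conj]
  congr 1
  simp only [map_mul, Complex.conj_I, Complex.conj_ofReal, map_ofNat]
  push_cast
  ring

theorem ee_nat_mul (n : ℕ) (x : ℝ) : ee (n * x) = ee x ^ n := by
  unfold ee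
  rw [← Complex.exp_nat_mul]
  congr 1
  push_cast
  ring

theorem ee_sum {ι : Type*} (s : Finset ι) (f : ι → ℝ) : ee (∑ i ∈ s, f i) = ∏ i ∈ s, ee (f i) := by
  classical
  induction s using Finset.induction_on with
  | empty => simp [ee_zero]
  | insert a s ha ih => rw [Finset.sum_insert ha, Finset.prod_insert ha, ee_add, ih]

theorem ee_eq_one_iff (M : ℕ) (hM : 0 < M) (w : ℤ) :
    ee ((w : ℝ) / (M : ℝ)) = 1 ↔ (M : ℤ) ∣ w := by
  have hM' : (M : ℂ) ≠ 0 := by exact_mod_cast hM.ne'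
  unfold ee
  rw [Complex.exp_eq_one_iff]
  constructor
  · rintro ⟨n, hn⟩
    have h2 : (2 * (Real.pi : ℂ) * Complex.I) ≠ 0 := by
      simp [Real.pi_ne_zero, Complex.I_ne_zero]
    have h3 : ((w : ℂ) / (M : ℂ)) = n := by
      have : (2 * (Real.pi : ℂ) * Complex.I) * ((w : ℂ) / (M : ℂ))
          = (2 * (Real.pi : ℂ) * Complex.I) * n := by
        rw [mul_comm _ (n : ℂ), ← hn]
        push_cast
        ring
      exact mul_left_cancel₀ h2 this
    have h4 : (w : ℂ) = n * M := by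
      field_simp at h3
      rw [h3]; ring
    have h5 : w = n * M := by exact_mod_cast h4
    exact ⟨n, by rw [h5]; ring⟩
  · rintro ⟨n, rfl⟩
    refine ⟨n, ?_⟩
    push_cast
    field_simp

/-- `ee (w / M)` only depends on `w` modulo `M`. -/
theorem ee_congr (M : ℕ) (hM : 0 < M) (w w' : ℤ) (h : (M : ℤ) ∣ w - w') :
    ee ((w : ℝ) / (M : ℝ)) = ee ((w' : ℝ) / (M : ℝ)) := by
  have h1 : (w : ℝ) / (M : ℝ) = ((w - w' : ℤ) : ℝ) / (M : ℝ) + (w' : ℝ) / (M : ℝ) := by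
    push_cast; ring
  rw [h1, ee_add, (ee_eq_one_iff M hM _).2 h, one_mul]

theorem sum_ee_range (M : ℕ) (hM : 0 < M) (w : ℤ) :
    ∑ y ∈ range M, ee ((((y : ℤ) * w : ℤ) : ℝ) / (M : ℝ)) = if (M : ℤ) ∣ w then (M : ℂ) else 0 := by
  have hterm : ∀ y : ℕ, ee ((((y : ℤ) * w : ℤ) : ℝ) / (M : ℝ)) = ee ((w : ℝ) / (M : ℝ)) ^ y := by
    intro y
    rw [← ee_nat_mul]
    congr 1
    push_cast
    ring
  simp_rw [hterm]
  split_ifs with h
  · rw [(ee_eq_one_iff M hM w).2 h]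
    simp
  · have hne : ee ((w : ℝ) / (M : ℝ)) ≠ 1 := fun hc => h ((ee_eq_one_iff M hM w).1 hc)
    rw [geom_sum_eq hne]
    have hpow : ee ((w : ℝ) / (M : ℝ)) ^ M = 1 := by
      rw [← ee_nat_mul]
      have : (M : ℝ) * ((w : ℝ) / (M : ℝ)) = (w : ℝ) := by
        have hM' : (M : ℝ) ≠ 0 := by exact_mod_cast hM.ne'
        field_simp
      rw [this, ee_int]
    rw [hpow]
    simp

/-- the second moment of the residue counting function is the energy. -/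
theorem sum_sq_fiber_eq_energy (M : ℕ) (hM : 0 < M) (B : Finset ℕ) :
    ∑ z ∈ range M, ((B.filter (fun b => b % M = z)).card) ^ 2 = energy M B := by
  unfold energy
  have hmaps : ∀ p ∈ (B ×ˢ B).filter (fun p => (M : ℤ) ∣ (p.1 : ℤ) - (p.2 : ℤ)),
      p.1 % M ∈ range M := fun p _ => mem_range.2 (Nat.mod_lt _ hM)
  rw [Finset.card_eq_sum_card_fiberwise hmaps]
  refine Finset.sum_congr rfl (fun z _ => ?_)
  rw [sq, ← Finset.card_product]
  congr 1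
  ext ⟨b, b'⟩
  simp only [mem_product, mem_filter]
  constructor
  · rintro ⟨⟨h1, h2⟩, h3, h4⟩
    refine ⟨⟨⟨h1, h3⟩, ?_⟩, h2⟩
    have : (b : ℤ) % M = (b' : ℤ) % M := by
      have h5 : b % M = b' % M := by rw [h2, h4]
      exact_mod_cast h5
    exact Int.ModEq.dvd (show (b' : ℤ) ≡ b [ZMOD M] from this.symm)
  · rintro ⟨⟨⟨h1, h3⟩, h5⟩, h2⟩
    refine ⟨⟨h1, h2⟩, h3, ?_⟩
    have h6 : (b' : ℤ) ≡ b [ZMOD M] := (Int.modEq_iff_dvd).2 h5
    have h7 : b' % M = b % M := by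
      have : (b' : ℤ) % M = (b : ℤ) % M := h6
      exact_mod_cast this
    rw [h7, h2]

theorem sum_normSq_eq (M : ℕ) (hM : 0 < M) (σ : ℤ) (hσ : IsCoprime σ (M : ℤ)) (A : Finset ℕ) :
    ∑ z ∈ range M, ‖∑ a ∈ A, ee (((σ * (a : ℤ) * (z : ℤ) : ℤ) : ℝ) / (M : ℝ))‖ ^ 2
      = (M : ℝ) * energy M A := by
  have key : ∑ z ∈ range M, ((‖∑ a ∈ A, ee (((σ * (a : ℤ) * (z : ℤ) : ℤ) : ℝ) / (M : ℝ))‖ ^ 2 : ℝ) : ℂ)
      = ((M : ℝ) * energy M A : ℝ) := by
    have h1 : ∀ z : ℕ, ((‖∑ a ∈ A, ee (((σ * (a : ℤ) * (z : ℤ) : ℤ) : ℝ) / (M : ℝ))‖ ^ 2 : ℝ) : ℂ)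
        = ∑ p ∈ A ×ˢ A, ee ((((z : ℤ) * (σ * ((p.1 : ℤ) - (p.2 : ℤ))) : ℤ) : ℝ) / (M : ℝ)) := by
      intro z
      rw [← Complex.normSq_eq_norm_sq, ← Complex.mul_conj, map_sum, Finset.sum_mul_sum,
        Finset.sum_product]
      refine Finset.sum_congr rfl (fun a _ => Finset.sum_congr rfl (fun a' _ => ?_))
      rw [← ee_neg, ← ee_add]
      congr 1
      push_cast
      ring
    simp_rw [h1]
    rw [Finset.sum_comm]
    simp_rw [sum_ee_range M hM]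
    rw [← Finset.sum_filter, Finset.sum_const]
    unfold energy
    have h2 : (A ×ˢ A).filter (fun p => (M : ℤ) ∣ σ * ((p.1 : ℤ) - (p.2 : ℤ)))
        = (A ×ˢ A).filter (fun p => (M : ℤ) ∣ (p.1 : ℤ) - (p.2 : ℤ)) := by
      apply Finset.filter_congr
      intro p _
      constructor
      · intro h
        exact hσ.symm.dvd_of_dvd_mul_left h
      · intro h
        exact h.mul_left σ
    rw [h2]
    simp only [nsmul_eq_mul]
    push_cast
    ring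
  have key' : ((∑ z ∈ range M,
      ‖∑ a ∈ A, ee (((σ * (a : ℤ) * (z : ℤ) : ℤ) : ℝ) / (M : ℝ))‖ ^ 2 : ℝ) : ℂ)
      = ((M : ℝ) * energy M A : ℝ) := by
    rw [← key]
    push_cast
    rfl
  exact_mod_cast key'

theorem bilinear_bound (M : ℕ) (hM : 0 < M) (σ : ℤ) (hσ : IsCoprime σ (M : ℤ)) (A B : Finset ℕ) :
    ‖∑ a ∈ A, ∑ b ∈ B, ee (((σ * (a : ℤ) * (b : ℤ) : ℤ) : ℝ) / (M : ℝ))‖ ^ 2
      ≤ (M : ℝ) * energy M A * energy M B := by
  set f : ℕ → ℂ := fun z => ∑ a ∈ A, ee (((σ * (a : ℤ) * (z : ℤ) : ℤ) : ℝ) / (M : ℝ)) with hf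
  have hfmod : ∀ b : ℕ, f b = f (b % M) := by
    intro b
    simp only [hf]
    refine Finset.sum_congr rfl (fun a _ => ?_)
    apply ee_congr M hM
    have h1 : (M : ℤ) ∣ (b : ℤ) - ((b % M : ℕ) : ℤ) := by
      push_cast
      exact Int.dvd_self_sub_emod
    have h2 : σ * (a : ℤ) * (b : ℤ) - σ * (a : ℤ) * ((b % M : ℕ) : ℤ)
        = σ * (a : ℤ) * ((b : ℤ) - ((b % M : ℕ) : ℤ)) := by ring
    rw [h2]
    exact h1.mul_left _
  have hS : ∑ a ∈ A, ∑ b ∈ B, ee (((σ * (a : ℤ) * (b : ℤ) : ℤ) : ℝ) / (M : ℝ))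
      = ∑ z ∈ range M, ((B.filter (fun b => b % M = z)).card : ℂ) * f z := by
    rw [Finset.sum_comm]
    have h1 : ∑ b ∈ B, ∑ a ∈ A, ee (((σ * (a : ℤ) * (b : ℤ) : ℤ) : ℝ) / (M : ℝ))
        = ∑ b ∈ B, f (b % M) := Finset.sum_congr rfl (fun b _ => hfmod b)
    rw [h1, ← Finset.sum_fiberwise_of_maps_to (s := B) (t := range M) (g := fun b => b % M)
      (fun b _ => mem_range.2 (Nat.mod_lt _ hM))]
    refine Finset.sum_congr rfl (fun z _ => ?_)
    rw [Finset.sum_congr rfl (g := fun _ => f z)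
      (fun b hb => by rw [(Finset.mem_filter.1 hb).2]), Finset.sum_const, nsmul_eq_mul]
  rw [hS]
  have h1 : ‖∑ z ∈ range M, ((B.filter (fun b => b % M = z)).card : ℂ) * f z‖
      ≤ ∑ z ∈ range M, ((B.filter (fun b => b % M = z)).card : ℝ) * ‖f z‖ := by
    refine (norm_sum_le _ _).trans (le_of_eq ?_)
    refine Finset.sum_congr rfl (fun z _ => ?_)
    rw [norm_mul, Complex.norm_natCast]
  have h2 := Finset.sum_mul_sq_le_sq_mul_sq (range M)
    (fun z => ((B.filter (fun b => b % M = z)).card : ℝ)) (fun z => ‖f z‖)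
  have h3 : ∑ z ∈ range M, ((B.filter (fun b => b % M = z)).card : ℝ) ^ 2 = energy M B := by
    exact_mod_cast sum_sq_fiber_eq_energy M hM B
  have h4 : ∑ z ∈ range M, ‖f z‖ ^ 2 = (M : ℝ) * energy M A := sum_normSq_eq M hM σ hσ A
  calc ‖∑ z ∈ range M, ((B.filter (fun b => b % M = z)).card : ℂ) * f z‖ ^ 2
      ≤ (∑ z ∈ range M, ((B.filter (fun b => b % M = z)).card : ℝ) * ‖f z‖) ^ 2 :=
        pow_le_pow_left₀ (norm_nonneg _) h1 2
    _ ≤ (∑ z ∈ range M, ((B.filter (fun b => b % M = z)).card : ℝ) ^ 2)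
          * ∑ z ∈ range M, ‖f z‖ ^ 2 := h2
    _ = (M : ℝ) * energy M A * energy M B := by rw [h3, h4]; ring

end Vale.Agent.Lib.P012b
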