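import Vale.Agent.Lib.P012_helper13.LLCore
import Vale.Agent.Lib.P012_helper12.LLAssembly

/-!
# P012b: `N(b) ≤ 20000 log log b * log log log b`
-/

namespace Vale.Agent.Lib.P012b

open Finset

/-- at scale `i`: every `a / b` with `b ≤ 2 ^ 2 ^ i` is a short Egyptian fraction. -/
theorem egyptian_scale (i : ℕ) (hi : 12 ≤ i) (a b : ℕ) (ha : 1 ≤ a) (hab : a < b)
    (hb : b ≤ 2 ^ 2 ^ i) :
    ∃ S : Finset ℕ, (∀ n ∈ S, 2 ≤ n) ∧
      (S.card : ℝ) ≤ 21 + 19474 * i + 1536 * i * Real.log i ∧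
      ∑ n ∈ S, (1 / n : ℚ) = a / b := by
  obtain ⟨H, Z, t, hZ2, hZ, hH, hRep, ht⟩ := core i hi
  obtain ⟨S, hS1, hS2, hS3⟩ := assembly H Z t (2 * i) hZ2 hZ hRep a b ha hab
    ((Nat.mul_le_mul_right _ hb).trans hH)
  refine ⟨S, hS1, ?_, hS3⟩
  have h1 : (S.card : ℝ) ≤ ((2 * i + 1 + 2 * t : ℕ) : ℝ) := by exact_mod_cast hS2
  push_cast at h1
  linarith

theorem main_explicit (b : ℕ) (hb1 : Real.exp (Real.exp 13) ≤ (b : ℝ)) (a : ℕ) (ha : 1 ≤ a)
    (hab : a < b) :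
    ∃ S : Finset ℕ, (∀ n ∈ S, 2 ≤ n) ∧
      (S.card : ℝ) ≤ 20000 * Real.log (Real.log b) * Real.log (Real.log (Real.log b)) ∧
      ∑ n ∈ S, (1 / n : ℚ) = a / b := by
  have hbpos : (0 : ℝ) < b := lt_of_lt_of_le (Real.exp_pos _) hb1
  set L : ℝ := Real.log b with hL
  have hL1 : Real.exp 13 ≤ L := by
    rw [hL, Real.le_log_iff_exp_le hbpos]
    exact hb1
  have hLpos : 0 < L := lt_of_lt_of_le (Real.exp_pos _) hL1
  set LL : ℝ := Real.log L with hLL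
  have hLL1 : 13 ≤ LL := by
    rw [hLL, Real.le_log_iff_exp_le hLpos]
    exact hL1
  have hLLpos : 0 < LL := by linarith
  set LLL : ℝ := Real.log LL with hLLL
  have hLLL1 : 2 ≤ LLL := by
    rw [hLLL, Real.le_log_iff_exp_le hLLpos]
    have h1 : Real.exp 2 = Real.exp 1 ^ 2 := by
      rw [← Real.exp_nat_mul]; norm_num
    have h2 := Real.exp_one_lt_d9
    have h3 : Real.exp 1 ^ 2 ≤ 3 ^ 2 := pow_le_pow_left₀ (Real.exp_pos 1).le (by linarith) 2
    rw [h1]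
    linarith
  have hlog2 : (0.69 : ℝ) < Real.log 2 := by
    have := Real.log_two_gt_d9
    linarith
  have hlog2' : Real.log 2 < 0.6932 := by
    have := Real.log_two_lt_d9
    linarith
  have hlog2pos : 0 < Real.log 2 := by linarith
  set k1 : ℕ := ⌈LL / Real.log 2⌉₊ with hk1
  set i : ℕ := k1 + 1 with hi
  have hk1le : LL / Real.log 2 ≤ (k1 : ℝ) := Nat.le_ceil _
  have hLLk1 : LL ≤ (k1 : ℝ) * Real.log 2 := by rwa [div_le_iff₀ hlog2pos] at hk1le
  have hk13 : 13 ≤ k1 := by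
    have h1 : (13 : ℝ) ≤ (k1 : ℝ) := by nlinarith
    exact_mod_cast h1
  have h2k : L ≤ (2 : ℝ) ^ k1 := by
    have e3 : Real.exp LL ≤ Real.exp ((k1 : ℝ) * Real.log 2) := Real.exp_le_exp.mpr hLLk1
    rw [hLL, Real.exp_log hLpos, Real.exp_nat_mul, Real.exp_log (by norm_num)] at e3
    exact e3
  have hb2 : b ≤ 2 ^ 2 ^ i := by
    have e1 : (b : ℝ) ≤ (2 : ℝ) ^ (2 ^ i) := by
      have e2 : (b : ℝ) = Real.exp L := by
        rw [hL, Real.exp_log hbpos]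
      have e3 : Real.exp L ≤ Real.exp (((2 ^ i : ℕ) : ℝ) * Real.log 2) := by
        apply Real.exp_le_exp.mpr
        rw [hi, pow_succ]
        push_cast
        have : (0 : ℝ) < 2 ^ k1 := by positivity
        nlinarith
      rw [Real.exp_nat_mul, Real.exp_log (show (0 : ℝ) < 2 by norm_num)] at e3
      rw [e2]
      exact e3
    exact_mod_cast e1
  obtain ⟨S, hS1, hS2, hS3⟩ := egyptian_scale i (by omega) a b ha hab hb2
  refine ⟨S, hS1, hS2.trans ?_, hS3⟩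
  have hk1lt : (k1 : ℝ) < LL / Real.log 2 + 1 := Nat.ceil_lt_add_one (by positivity)
  have hdiv : LL / Real.log 2 ≤ 1.45 * LL := by
    rw [div_le_iff₀ hlog2pos]
    nlinarith
  have hi1 : (i : ℝ) ≤ 1.61 * LL := by
    rw [hi]
    push_cast
    linarith
  have hipos : (0 : ℝ) < i := by
    have : 0 < i := by omega
    exact_mod_cast this
  have hlogi : Real.log i ≤ 0.6932 + LLL := by
    have h1 : Real.log i ≤ Real.log (2 * LL) := Real.log_le_log hipos (by linarith)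
    rw [Real.log_mul (by norm_num) hLLpos.ne'] at h1
    linarith
  have hlogi0 : 0 ≤ Real.log i := Real.log_nonneg (by
    have : 1 ≤ i := by omega
    exact_mod_cast this)
  have h1 : (i : ℝ) * Real.log i ≤ (1.61 * LL) * (0.6932 + LLL) :=
    mul_le_mul hi1 hlogi hlogi0 (by positivity)
  have h2 : 13 * 2 ≤ LL * LLL := mul_le_mul hLL1 hLLL1 (by norm_num) hLLpos.le
  have h3 : LL * 2 ≤ LL * LLL := mul_le_mul_of_nonneg_left hLLL1 hLLpos.le
  nlinarith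

theorem main : ∃ C : ℝ, ∃ b₀ : ℕ, ∀ b ≥ b₀, ∀ a, 1 ≤ a → a < b →
    ∃ S : Finset ℕ, (∀ n ∈ S, 2 ≤ n) ∧
      (S.card : ℝ) ≤ C * Real.log (Real.log b) * Real.log (Real.log (Real.log b)) ∧
      ∑ n ∈ S, (1 / n : ℚ) = a / b := by
  refine ⟨20000, ⌈Real.exp (Real.exp 13)⌉₊, ?_⟩
  intro b hb a ha hab
  exact main_explicit b ((Nat.le_ceil _).trans (by exact_mod_cast hb)) a ha hab

end Vale.Agent.Lib.P012b
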