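import Vale.Agent.Lib.P012_helper13.LLDefs

/-!
# P012b: the pool of primes
-/

namespace Vale.Agent.Lib.P012b

open Finset

/-- the primes up to `X` are `2`, `3` and the primes in `[5, X]`. -/
theorem primeCounting_le_card_add_two (X : ℕ) :
    Nat.primeCounting X ≤ ((Icc 5 X).filter Nat.Prime).card + 2 := by
  have h1 : Nat.primeCounting X = ((range (X + 1)).filter Nat.Prime).card := by
    rw [Nat.primeCounting, Nat.primeCounting', Nat.count_eq_card_filter_range]
  rw [h1]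
  have hsub : (range (X + 1)).filter Nat.Prime ⊆ (Icc 5 X).filter Nat.Prime ∪ {2, 3} := by
    intro q hq
    rw [mem_filter, mem_range] at hq
    obtain ⟨hq1, hq2⟩ := hq
    rw [mem_union, mem_filter, mem_Icc, mem_insert, mem_singleton]
    by_cases h5 : 5 ≤ q
    · left
      exact ⟨⟨h5, by omega⟩, hq2⟩
    · right
      have : q < 5 := by omega
      interval_cases q
      · exact absurd hq2 (by norm_num)
      · exact absurd hq2 (by norm_num)
      · left; rfl
      · right; rfl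
      · exact absurd hq2 (by norm_num)
  calc ((range (X + 1)).filter Nat.Prime).card
      ≤ ((Icc 5 X).filter Nat.Prime ∪ {2, 3}).card := card_le_card hsub
    _ ≤ ((Icc 5 X).filter Nat.Prime).card + ({2, 3} : Finset ℕ).card := card_union_le _ _
    _ = ((Icc 5 X).filter Nat.Prime).card + 2 := by rfl

/-- Chebyshev lower bound in the form we need. -/
theorem card_primes_ge (k : ℕ) (hk : 12 ≤ k) :
    ((2 : ℝ) ^ k) ^ 15 / 32 ≤ (((Icc 5 (2 ^ (16 * k))).filter Nat.Prime).card : ℝ) := by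
  set c : ℕ := ((Icc 5 (2 ^ (16 * k))).filter Nat.Prime).card with hc
  have hpi := Chebyshev.pi_ge (2 ^ (16 * k))
  have hle : (Nat.primeCounting (2 ^ (16 * k)) : ℝ) ≤ (c : ℝ) + 2 := by
    exact_mod_cast primeCounting_le_card_add_two (2 ^ (16 * k))
  have hl2 : 0 < Real.log 2 := Real.log_pos (by norm_num)
  have hkpos : (0 : ℝ) < k := by
    have : 0 < k := by omega
    exact_mod_cast this
  set x : ℝ := (2 : ℝ) ^ (16 * k) with hx
  have hxcast : ((2 ^ (16 * k) : ℕ) : ℝ) = x := by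
    rw [hx]; push_cast; rfl
  rw [hxcast] at hpi
  have hxpos : 0 < x := by rw [hx]; positivity
  have hx1 : 1 ≤ x := by rw [hx]; exact one_le_pow₀ (by norm_num)
  have hlogx : Real.log x = 16 * k * Real.log 2 := by
    rw [hx, Real.log_pow]; push_cast; ring
  have hlogx1 : Real.log (x + 1) ≤ (16 * k + 1) * Real.log 2 := by
    have h2x : Real.log (x + 1) ≤ Real.log (2 * x) :=
      Real.log_le_log (by linarith) (by linarith)
    rw [Real.log_mul (by norm_num) hxpos.ne', hlogx] at h2x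
    linarith
  have hden : 0 < 16 * (k : ℝ) * Real.log 2 := by positivity
  rw [hlogx, div_le_iff₀ hden] at hpi
  -- `x - (16 k + 1) ≤ (c + 2) * 16 k`
  have hmain : x - (16 * k + 1) ≤ ((c : ℝ) + 2) * (16 * k) := by
    have h1 : (x - (16 * k + 1)) * Real.log 2 ≤ (((c : ℝ) + 2) * (16 * k)) * Real.log 2 := by
      have h2 : (Nat.primeCounting (2 ^ (16 * k)) : ℝ) * (16 * k * Real.log 2)
          ≤ ((c : ℝ) + 2) * (16 * k * Real.log 2) :=
        mul_le_mul_of_nonneg_right hle hden.le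
      nlinarith
    exact le_of_mul_le_mul_right h1 hl2
  set s : ℝ := (2 : ℝ) ^ k with hs
  have hxs : x = s ^ 16 := by
    rw [hx, hs, ← pow_mul, mul_comm]
  have hks : (k : ℝ) < s := by
    rw [hs]
    exact_mod_cast Nat.lt_two_pow_self
  have hs12 : (4096 : ℝ) ≤ s := by
    rw [hs]
    calc (4096 : ℝ) = 2 ^ 12 := by norm_num
      _ ≤ 2 ^ k := pow_le_pow_right₀ (by norm_num) hk
  have hspos : 0 < s := by linarith
  -- `c * 16 k ≥ x - 49 k`, and `x ≥ 98 s`
  have h15 : (4096 : ℝ) ^ 15 ≤ s ^ 15 := pow_le_pow_left₀ (by norm_num) hs12 15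
  have hk1 : (1 : ℝ) ≤ k := by
    have : 1 ≤ k := by omega
    exact_mod_cast this
  have hcpos : (0 : ℝ) ≤ c := Nat.cast_nonneg c
  -- from hmain: s^16 ≤ 16 k c + 49 k ≤ 16 s c + 49 s
  have h3 : s ^ 16 ≤ 16 * s * c + 49 * s := by
    have h4 : s ^ 16 ≤ 16 * k * c + 49 * k := by
      rw [hxs] at hmain
      nlinarith
    have h5 : 16 * (k : ℝ) * c ≤ 16 * s * c := by
      have : 16 * (k : ℝ) ≤ 16 * s := by linarith
      exact mul_le_mul_of_nonneg_right this hcpos
    linarith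
  have h6 : s ^ 15 ≤ 16 * c + 49 := by
    have : s * s ^ 15 ≤ s * (16 * c + 49) := by
      calc s * s ^ 15 = s ^ 16 := by ring
        _ ≤ 16 * s * c + 49 * s := h3
        _ = s * (16 * c + 49) := by ring
    exact le_of_mul_le_mul_left this hspos
  have h7 : (98 : ℝ) ≤ s ^ 15 := le_trans (by norm_num) h15
  linarith

/-- the primes available for the blocks and the spectators. -/
def PP (i : ℕ) : Finset ℕ := (Icc 5 (2 ^ (16 * i))).filter (fun q => q.Prime ∧ 2 ^ (8 * i) < q)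

theorem mem_PP {i q : ℕ} (h : q ∈ PP i) :
    q.Prime ∧ 2 ^ (8 * i) < q ∧ q ≤ 2 ^ (16 * i) ∧ 5 ≤ q := by
  unfold PP at h
  rw [mem_filter, mem_Icc] at h
  exact ⟨h.2.1, h.2.2, h.1.2, h.1.1⟩

theorem card_PP_ge (i : ℕ) (hi : 12 ≤ i) : 127 * (2 ^ i) ^ 14 ≤ (PP i).card := by
  have h1 := card_primes_ge i hi
  have hsub : (Icc 5 (2 ^ (16 * i))).filter Nat.Prime ⊆ PP i ∪ Icc 1 (2 ^ (8 * i)) := by
    intro q hq
    rw [mem_filter, mem_Icc] at hq
    rw [mem_union]
    by_cases hw : 2 ^ (8 * i) < q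
    · left
      unfold PP
      rw [mem_filter, mem_Icc]
      exact ⟨hq.1, hq.2, hw⟩
    · right
      rw [mem_Icc]
      omega
  have h2 : ((Icc 5 (2 ^ (16 * i))).filter Nat.Prime).card ≤ (PP i).card + 2 ^ (8 * i) := by
    calc ((Icc 5 (2 ^ (16 * i))).filter Nat.Prime).card
        ≤ (PP i ∪ Icc 1 (2 ^ (8 * i))).card := card_le_card hsub
      _ ≤ (PP i).card + (Icc 1 (2 ^ (8 * i))).card := card_union_le _ _
      _ = (PP i).card + 2 ^ (8 * i) := by simp
  have h3 : (((Icc 5 (2 ^ (16 * i))).filter Nat.Prime).card : ℝ)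
      ≤ ((PP i).card : ℝ) + ((2 : ℝ) ^ i) ^ 8 := by
    have : ((2 : ℝ) ^ i) ^ 8 = ((2 ^ (8 * i) : ℕ) : ℝ) := by
      push_cast
      rw [← pow_mul, mul_comm]
    rw [this]
    exact_mod_cast h2
  set s : ℝ := (2 : ℝ) ^ i with hs
  have hs12 : (4096 : ℝ) ≤ s := by
    rw [hs]
    calc (4096 : ℝ) = 2 ^ 12 := by norm_num
      _ ≤ 2 ^ i := pow_le_pow_right₀ (by norm_num) hi
  have hs1 : (1 : ℝ) ≤ s := by linarith
  have h8 : s ^ 8 ≤ s ^ 14 := pow_le_pow_right₀ hs1 (by norm_num)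
  have h14 : 0 < s ^ 14 := by positivity
  have h15 : 4096 * s ^ 14 ≤ s ^ 15 := by
    have : s ^ 15 = s * s ^ 14 := by ring
    rw [this]
    exact mul_le_mul_of_nonneg_right hs12 h14.le
  have h4 : 127 * s ^ 14 ≤ ((PP i).card : ℝ) := by linarith
  have h5 : ((127 * (2 ^ i) ^ 14 : ℕ) : ℝ) ≤ ((PP i).card : ℝ) := by
    push_cast
    rw [← hs]
    exact h4
  exact_mod_cast h5

end Vale.Agent.Lib.P012b
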