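import Vale.Agent.Lib.P012_helper13.LLStep

/-!
# P012b: the schedule of the recursion
-/

namespace Vale.Agent.Lib.P012b

open Finset

/-- binary expansion -/
theorem binary_rep (E m : ℕ) (hm : m < 2 ^ E) :
    ∃ D : Finset ℕ, D ⊆ (range E).image (fun e => 2 ^ e) ∧ ∑ d ∈ D, d = m := by
  induction E generalizing m with
  | zero =>
    have : m = 0 := by simpa using hm
    exact ⟨∅, by simp, by simp [this]⟩
  | succ E ih =>
    by_cases h : m < 2 ^ E
    · obtain ⟨D, hD, hs⟩ := ih m h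
      exact ⟨D, hD.trans (image_subset_image (range_subset_range.2 (Nat.le_succ E))), hs⟩
    · push Not at h
      obtain ⟨D, hD, hs⟩ := ih (m - 2 ^ E) (by rw [pow_succ] at hm; omega)
      have hnot : 2 ^ E ∉ D := by
        intro hmem
        obtain ⟨e, he, hee⟩ := mem_image.1 (hD hmem)
        have : e = E := Nat.pow_right_injective (le_refl 2) hee
        simp [this] at he
      refine ⟨insert (2 ^ E) D, ?_, ?_⟩
      · intro x hx
        rcases mem_insert.1 hx with rfl | hx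
        · exact mem_image.2 ⟨E, by simp, rfl⟩
        · exact image_subset_image (range_subset_range.2 (Nat.le_succ E)) (hD hx)
      · rw [sum_insert hnot, hs]; omega

theorem St_base (i E : ℕ) (S : Finset ℕ) (hS : S ⊆ PP i) : St i E S 0 E := by
  refine ⟨∅, by simp, by simp, by simp, ?_⟩
  intro m hm
  simp only [Finset.prod_empty, mul_one] at hm ⊢
  obtain ⟨D, hD, hs⟩ := binary_rep E m hm
  have hpos : 0 < ∏ p ∈ S, p := Finset.prod_pos (fun p hp => (mem_PP (hS hp)).1.pos)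
  refine ⟨D, ?_, ?_, hs⟩
  · intro d hd
    obtain ⟨e, he, rfl⟩ := mem_image.1 (hD hd)
    rw [Nat.mem_divisors]
    refine ⟨(pow_dvd_pow 2 (mem_range.1 he).le).trans (dvd_mul_right _ _), ?_⟩
    positivity
  · calc D.card ≤ ((range E).image (fun e => 2 ^ e)).card := card_le_card hD
      _ ≤ (range E).card := card_image_le
      _ = E := card_range E

theorem St_run (i E : ℕ) (hi : 12 ≤ i) (hE : 7 ≤ E) (S : Finset ℕ) (hS : S ⊆ PP i)
    (hSc : S.card = 2 ^ i) (σ k c t : ℕ) (hk1 : 1 ≤ k) (hk2 : k ≤ 2 ^ i) (hσ : σ ≤ 2 ^ i)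
    (hent : 2 ^ (12 * i * k) ≤ (2 ^ i).choose σ) (hsz : 10 + 32 * i * σ ≤ E + 8 * i * c)
    (h : St i E S c t) (s : ℕ) : St i E S (c + s * k) (t + 8 * s) := by
  induction s with
  | zero => simpa using h
  | succ s ih =>
    have h1 := step i E hi hE S hS hSc σ k (c + s * k) (t + 8 * s) hk1 hk2 hσ hent
      (hsz.trans (Nat.add_le_add_left (Nat.mul_le_mul_left _ (Nat.le_add_right _ _)) _)) ih
    have e1 : c + s * k + k = c + (s + 1) * k := by ring
    have e2 : t + 8 * s + 8 = t + 8 * (s + 1) := by ring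
    rwa [e1, e2] at h1

/-- number of primes killed per step in phase `p`. -/
def kk (i p : ℕ) : ℕ := (i - p - 1) * 2 ^ p / (12 * i)

/-- number of steps in phase `p`. -/
def ss (i p : ℕ) : ℕ := 96 * i / (i - p - 1) + 1

theorem phase_ineq (i p : ℕ) (hi : 12 ≤ i) (hp6 : 6 ≤ p) (hp : p + 2 ≤ i) :
    24 * i ≤ (i - p - 1) * 2 ^ p := by
  obtain ⟨j, hj⟩ : ∃ j, i = j + p + 1 := ⟨i - p - 1, by omega⟩
  have hj1 : 1 ≤ j := by omega
  have e : i - p - 1 = j := by omega
  rw [e, hj]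
  by_cases hp9 : 9 ≤ p
  · have h2 : ∀ p, 9 ≤ p → 24 * p + 48 ≤ 2 ^ p := by
      intro p hp
      induction p, hp using Nat.le_induction with
      | base => norm_num
      | succ p hp ih => rw [pow_succ]; omega
    have h3 := h2 p hp9
    calc 24 * (j + p + 1) ≤ j * (24 * p + 48) := by nlinarith
      _ ≤ j * 2 ^ p := Nat.mul_le_mul_left _ h3
  · have : p = 6 ∨ p = 7 ∨ p = 8 := by omega
    rcases this with rfl | rfl | rfl <;> norm_num <;> omega

theorem kk_two_mul (i p : ℕ) (hi : 12 ≤ i) (hp6 : 6 ≤ p) (hp : p + 2 ≤ i) :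
    (i - p - 1) * 2 ^ p ≤ 24 * i * kk i p := by
  have h1 := phase_ineq i p hi hp6 hp
  unfold kk
  set X := (i - p - 1) * 2 ^ p with hX
  have h2 : X < 12 * i * (X / (12 * i)) + 12 * i := by
    have := Nat.div_add_mod X (12 * i)
    have h3 := Nat.mod_lt X (show 0 < 12 * i by omega)
    omega
  have e : 24 * i * (X / (12 * i)) = 2 * (12 * i * (X / (12 * i))) := by ring
  omega

theorem kk_pos (i p : ℕ) (hi : 12 ≤ i) (hp6 : 6 ≤ p) (hp : p + 2 ≤ i) : 1 ≤ kk i p := by
  have h1 := kk_two_mul i p hi hp6 hp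
  have h2 := phase_ineq i p hi hp6 hp
  by_contra hcon
  have : kk i p = 0 := by omega
  rw [this] at h1
  omega

theorem kk_le (i p : ℕ) (hi : 12 ≤ i) (hp : p + 2 ≤ i) : kk i p ≤ 2 ^ i := by
  unfold kk
  apply Nat.div_le_of_le_mul
  have h1 : 2 ^ p ≤ 2 ^ i := Nat.pow_le_pow_right (by norm_num) (by omega)
  exact Nat.mul_le_mul (by omega) h1

theorem kk_ent (i p : ℕ) (hp : p + 2 ≤ i) : 2 ^ (12 * i * kk i p) ≤ (2 ^ i).choose (2 ^ p) := by
  refine le_trans ?_ (two_pow_le_choose i p (by omega))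
  apply Nat.pow_le_pow_right (by norm_num)
  unfold kk
  exact Nat.mul_div_le _ _

theorem kk_mul_ss (i p : ℕ) (hi : 12 ≤ i) (hp6 : 6 ≤ p) (hp : p + 2 ≤ i) :
    4 * 2 ^ p ≤ ss i p * kk i p := by
  have h1 := kk_two_mul i p hi hp6 hp
  set j := i - p - 1 with hj
  have hj1 : 1 ≤ j := by omega
  have h2 : 96 * i ≤ j * ss i p := by
    unfold ss
    rw [← hj]
    have := Nat.div_add_mod (96 * i) j
    have h3 := Nat.mod_lt (96 * i) (show 0 < j by omega)
    rw [mul_add]
    omega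
  have h3 : (j * 2 ^ p) * (96 * i) ≤ (24 * i * kk i p) * (j * ss i p) := Nat.mul_le_mul h1 h2
  have h4 : (24 * i * j) * (4 * 2 ^ p) ≤ (24 * i * j) * (ss i p * kk i p) := by
    calc (24 * i * j) * (4 * 2 ^ p) = (j * 2 ^ p) * (96 * i) := by ring
      _ ≤ (24 * i * kk i p) * (j * ss i p) := h3
      _ = (24 * i * j) * (ss i p * kk i p) := by ring
  exact Nat.le_of_mul_le_mul_left h4 (by positivity)

/-- total number of steps of the first `r` phases. -/
def TT (i r : ℕ) : ℕ := ∑ r' ∈ range r, ss i (6 + r')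

theorem St_ramp (i : ℕ) (hi : 12 ≤ i) (S : Finset ℕ) (hS : S ⊆ PP i) (hSc : S.card = 2 ^ i)
    (r : ℕ) (hr : r + 7 ≤ i) :
    ∃ c, 4 * 2 ^ (6 + r) ≤ 256 + c ∧ St i (10 + 2048 * i) S c (10 + 2048 * i + 8 * TT i r) := by
  induction r with
  | zero => exact ⟨0, by norm_num, by simpa [TT] using St_base i (10 + 2048 * i) S hS⟩
  | succ r ih =>
    obtain ⟨c, hc, hSt⟩ := ih (by omega)
    set p := 6 + r with hp
    have hp2 : p + 2 ≤ i := by omega
    have hrun := St_run i (10 + 2048 * i) hi (by omega) S hS hSc (2 ^ p) (kk i p) c _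
      (kk_pos i p hi (by omega) hp2) (kk_le i p hi hp2)
      (Nat.pow_le_pow_right (by norm_num) (by omega)) (kk_ent i p hp2)
      (by
        have h1 : 8 * i * (4 * 2 ^ p) ≤ 8 * i * (256 + c) := Nat.mul_le_mul_left _ hc
        have e1 : 8 * i * (4 * 2 ^ p) = 32 * i * 2 ^ p := by ring
        have e2 : 8 * i * (256 + c) = 2048 * i + 8 * i * c := by ring
        omega)
      hSt (ss i p)
    refine ⟨c + ss i p * kk i p, ?_, ?_⟩
    · have h1 := kk_mul_ss i p hi (by omega) hp2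
      have e : 6 + (r + 1) = p + 1 := by omega
      rw [e, pow_succ]
      omega
    · have e : 10 + 2048 * i + 8 * TT i (r + 1) = 10 + 2048 * i + 8 * TT i r + 8 * ss i p := by
        unfold TT
        rw [Finset.sum_range_succ]
        ring
      rw [e]
      exact hrun

theorem St_final (i : ℕ) (hi : 12 ≤ i) (S : Finset ℕ) (hS : S ⊆ PP i) (hSc : S.card = 2 ^ i) :
    St i (10 + 2048 * i) S (9 * 2 ^ i) (10 + 2048 * i + 8 * TT i (i - 7) + 8 * (864 * i)) := by
  obtain ⟨c, hc, hSt⟩ := St_ramp i hi S hS hSc (i - 7) (by omega)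
  set p := i - 2 with hp
  have hp2 : p + 2 ≤ i := by omega
  have e0 : 6 + (i - 7) = p + 1 := by omega
  rw [e0, pow_succ] at hc
  have hrun := St_run i (10 + 2048 * i) hi (by omega) S hS hSc (2 ^ p) (kk i p) c _
    (kk_pos i p hi (by omega) hp2) (kk_le i p hi hp2)
    (Nat.pow_le_pow_right (by norm_num) (by omega)) (kk_ent i p hp2)
    (by
      have h1 : 8 * i * (4 * 2 ^ p) ≤ 8 * i * (256 + c) := Nat.mul_le_mul_left _ (by omega)
      have e1 : 8 * i * (4 * 2 ^ p) = 32 * i * 2 ^ p := by ring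
      have e2 : 8 * i * (256 + c) = 2048 * i + 8 * i * c := by ring
      omega)
    hSt (864 * i)
  obtain ⟨U, hU, hUc, hcU, hRep⟩ := hrun
  refine ⟨U, hU, hUc, ?_, hRep⟩
  refine le_trans ?_ hcU
  apply le_min _ (min_le_right _ _)
  refine (min_le_left _ _).trans ?_
  have h1 := kk_two_mul i p hi (by omega) hp2
  have e1 : i - p - 1 = 1 := by omega
  rw [e1, one_mul] at h1
  have e2 : 2 ^ i = 4 * 2 ^ p := by
    have : i = p + 2 := by omega
    rw [this, pow_add]
    ring
  have e3 : 864 * i * kk i p = 36 * (24 * i * kk i p) := by ring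
  omega

end Vale.Agent.Lib.P012b
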