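import Vale.Agent.Lib.P012_helper13.LLDefs

/-!
# P012b, module B: choice of the block primes by a potential function
-/

namespace Vale.Agent.Lib.P012b

open Finset

/-- number of `q ∈ Q` dividing the difference of the pair `p`. -/
def selNu (Q : Finset ℕ) (p : ℕ × ℕ) : ℕ :=
  (Q.filter (fun q : ℕ => (q : ℤ) ∣ (p.1 : ℤ) - (p.2 : ℤ))).card

/-- the potential of a set of pairs. -/
def selPhi (θ : ℕ) (W : Finset (ℕ × ℕ)) (Q : Finset ℕ) : ℕ := ∑ p ∈ W, θ ^ selNu Q p

theorem selNu_insert (Q : Finset ℕ) (q : ℕ) (hq : q ∉ Q) (p : ℕ × ℕ) :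
    selNu (insert q Q) p = selNu Q p + if (q : ℤ) ∣ (p.1 : ℤ) - (p.2 : ℤ) then 1 else 0 := by
  unfold selNu
  rw [Finset.filter_insert]
  split_ifs with h
  · rw [Finset.card_insert_of_notMem]
    intro hmem
    exact hq (Finset.mem_filter.1 hmem).1
  · simp

theorem selPhi_avg (θ L : ℕ) (W : Finset (ℕ × ℕ)) (pool Q : Finset ℕ)
    (hW : ∀ p ∈ W, selNu pool p ≤ L) :
    ∑ q ∈ pool \ Q, selPhi θ W (insert q Q) ≤ selPhi θ W Q * ((pool \ Q).card + θ * L) := by
  unfold selPhi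
  rw [Finset.sum_comm, Finset.sum_mul]
  apply Finset.sum_le_sum
  intro p hp
  have h1 : ∀ q ∈ pool \ Q, θ ^ selNu (insert q Q) p
      ≤ θ ^ selNu Q p * (1 + if (q : ℤ) ∣ (p.1 : ℤ) - (p.2 : ℤ) then θ else 0) := by
    intro q hq
    rw [selNu_insert Q q (Finset.mem_sdiff.1 hq).2 p, pow_add]
    apply Nat.mul_le_mul_left
    split_ifs <;> simp
  calc ∑ q ∈ pool \ Q, θ ^ selNu (insert q Q) p
      ≤ ∑ q ∈ pool \ Q, θ ^ selNu Q p * (1 + if (q : ℤ) ∣ (p.1 : ℤ) - (p.2 : ℤ) then θ else 0) :=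
        Finset.sum_le_sum h1
    _ = θ ^ selNu Q p * ((pool \ Q).card
          + ((pool \ Q).filter (fun q : ℕ => (q : ℤ) ∣ (p.1 : ℤ) - (p.2 : ℤ))).card * θ) := by
        rw [← Finset.mul_sum, Finset.sum_add_distrib, ← Finset.sum_filter]
        simp
    _ ≤ θ ^ selNu Q p * ((pool \ Q).card + θ * L) := by
        apply Nat.mul_le_mul_left
        apply Nat.add_le_add_left
        rw [mul_comm]
        apply Nat.mul_le_mul_left
        refine le_trans ?_ (hW p hp)
        exact Finset.card_le_card (Finset.filter_subset_filter _ Finset.sdiff_subset)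

theorem sel_pow_le (P c k : ℕ) (hP0 : 0 < P) (h : c * k ≤ P) : (P + c) ^ k ≤ 3 * P ^ k := by
  have hPr : (0 : ℝ) < P := by exact_mod_cast hP0
  have h1 : ((P : ℝ) + c) ^ k ≤ 3 * (P : ℝ) ^ k := by
    have h2 : (P : ℝ) + c = P * (1 + c / P) := by field_simp
    rw [h2, mul_pow, mul_comm]
    apply mul_le_mul_of_nonneg_right _ (by positivity)
    have h3 : 1 + (c : ℝ) / P ≤ Real.exp (c / P) := by
      have := Real.add_one_le_exp ((c : ℝ) / P)
      linarith
    calc (1 + (c : ℝ) / P) ^ k ≤ Real.exp (c / P) ^ k :=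
          pow_le_pow_left₀ (by positivity) h3 k
      _ = Real.exp (k * (c / P)) := by rw [← Real.exp_nat_mul]
      _ ≤ Real.exp 1 := by
          apply Real.exp_le_exp.2
          rw [mul_div_assoc', div_le_one hPr]
          have : k * c ≤ P := by rw [mul_comm]; exact h
          exact_mod_cast this
      _ ≤ 3 := by
          have := Real.exp_one_lt_d9
          linarith
  exact_mod_cast h1

theorem coll_mul_le_selPhi (θ : ℕ) (hθ : 1 ≤ θ) (A Q Q' : Finset ℕ) (hQ' : Q' ⊆ Q) :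
    coll Q' A * θ ^ Q'.card ≤ selPhi θ A.offDiag Q := by
  unfold coll selPhi
  rw [← smul_eq_mul, ← Finset.sum_const]
  calc ∑ _p ∈ A.offDiag.filter (fun p => ∀ q ∈ Q', (q : ℤ) ∣ (p.1 : ℤ) - (p.2 : ℤ)), θ ^ Q'.card
      ≤ ∑ p ∈ A.offDiag.filter (fun p => ∀ q ∈ Q', (q : ℤ) ∣ (p.1 : ℤ) - (p.2 : ℤ)),
          θ ^ selNu Q p := by
        apply Finset.sum_le_sum
        intro p hp
        apply Nat.pow_le_pow_right hθ
        unfold selNu
        apply Finset.card_le_card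
        intro q hq
        exact Finset.mem_filter.2 ⟨hQ' hq, (Finset.mem_filter.1 hp).2 q hq⟩
    _ ≤ ∑ p ∈ A.offDiag, θ ^ selNu Q p :=
        Finset.sum_le_sum_of_subset (Finset.filter_subset _ _)

theorem selPhi_empty (θ : ℕ) (A : Finset ℕ) : selPhi θ A.offDiag ∅ ≤ A.card ^ 2 := by
  unfold selPhi selNu
  simp only [Finset.filter_empty, Finset.card_empty, pow_zero, Finset.sum_const, smul_eq_mul,
    mul_one, Finset.offDiag_card]
  rw [sq]
  exact Nat.sub_le _ _

theorem select (A B pool : Finset ℕ) (L k θ P : ℕ) (hθ : 1 ≤ θ) (hP0 : 0 < P)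
    (hcard : A.card = B.card)
    (hA : ∀ a ∈ A, ∀ a' ∈ A, a ≠ a' →
      (pool.filter (fun q : ℕ => (q : ℤ) ∣ (a : ℤ) - (a' : ℤ))).card ≤ L)
    (hB : ∀ a ∈ B, ∀ a' ∈ B, a ≠ a' →
      (pool.filter (fun q : ℕ => (q : ℤ) ∣ (a : ℤ) - (a' : ℤ))).card ≤ L)
    (hpool : k + P ≤ pool.card) (hP : θ * L * k ≤ P) :
    ∃ Q ⊆ pool, Q.card = k ∧ ∀ Q' ⊆ Q,
      coll Q' A * θ ^ Q'.card ≤ 6 * A.card ^ 2 ∧ coll Q' B * θ ^ Q'.card ≤ 6 * A.card ^ 2 := by
  set Φ : Finset ℕ → ℕ := fun Q => selPhi θ A.offDiag Q + selPhi θ B.offDiag Q with hΦ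
  have hWA : ∀ p ∈ A.offDiag, selNu pool p ≤ L := by
    intro p hp
    rw [Finset.mem_offDiag] at hp
    exact hA p.1 hp.1 p.2 hp.2.1 hp.2.2
  have hWB : ∀ p ∈ B.offDiag, selNu pool p ≤ L := by
    intro p hp
    rw [Finset.mem_offDiag] at hp
    exact hB p.1 hp.1 p.2 hp.2.1 hp.2.2
  have hind : ∀ j ≤ k, ∃ Q ⊆ pool, Q.card = j ∧ Φ Q * P ^ j ≤ Φ ∅ * (P + θ * L) ^ j := by
    intro j
    induction j with
    | zero => intro _; exact ⟨∅, by simp, by simp, by simp⟩
    | succ j ih =>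
      intro hj
      obtain ⟨Q, hQ, hQc, hQΦ⟩ := ih (by omega)
      set rem := pool \ Q with hrem
      have hremc : rem.card = pool.card - j := by
        rw [hrem, Finset.card_sdiff_of_subset hQ, hQc]
      have hremP : P ≤ rem.card := by omega
      have hrem0 : 0 < rem.card := by omega
      have hne : rem.Nonempty := Finset.card_pos.1 hrem0
      have havg : ∑ q ∈ rem, Φ (insert q Q) ≤ Φ Q * (rem.card + θ * L) := by
        simp only [hΦ]
        rw [Finset.sum_add_distrib, add_mul]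
        exact Nat.add_le_add (selPhi_avg θ L _ pool Q hWA) (selPhi_avg θ L _ pool Q hWB)
      obtain ⟨q, hq, hqle⟩ := Finset.exists_le_of_sum_le (s := rem) hne
        (f := fun q => Φ (insert q Q) * rem.card) (g := fun _ => Φ Q * (rem.card + θ * L)) (by
          rw [← Finset.sum_mul, Finset.sum_const, smul_eq_mul, mul_comm]
          exact Nat.mul_le_mul_left _ havg)
      have hqQ : q ∉ Q := (Finset.mem_sdiff.1 hq).2
      have hstep : Φ (insert q Q) * P ≤ Φ Q * (P + θ * L) := by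
        have h1 : Φ (insert q Q) * P * rem.card ≤ Φ Q * (P + θ * L) * rem.card := by
          calc Φ (insert q Q) * P * rem.card = Φ (insert q Q) * rem.card * P := by ring
            _ ≤ Φ Q * (rem.card + θ * L) * P := Nat.mul_le_mul_right P hqle
            _ = Φ Q * (rem.card * P) + Φ Q * (θ * L) * P := by ring
            _ ≤ Φ Q * (rem.card * P) + Φ Q * (θ * L) * rem.card :=
                Nat.add_le_add_left (Nat.mul_le_mul_left _ hremP) _
            _ = Φ Q * (P + θ * L) * rem.card := by ring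
        exact Nat.le_of_mul_le_mul_right h1 hrem0
      refine ⟨insert q Q, ?_, ?_, ?_⟩
      · intro x hx
        rcases Finset.mem_insert.1 hx with rfl | hx
        · exact (Finset.mem_sdiff.1 hq).1
        · exact hQ hx
      · rw [Finset.card_insert_of_notMem hqQ, hQc]
      · calc Φ (insert q Q) * P ^ (j + 1) = (Φ (insert q Q) * P) * P ^ j := by ring
          _ ≤ (Φ Q * (P + θ * L)) * P ^ j := Nat.mul_le_mul_right _ hstep
          _ = (Φ Q * P ^ j) * (P + θ * L) := by ring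
          _ ≤ (Φ ∅ * (P + θ * L) ^ j) * (P + θ * L) := Nat.mul_le_mul_right _ hQΦ
          _ = Φ ∅ * (P + θ * L) ^ (j + 1) := by ring
  obtain ⟨Q, hQ, hQc, hQΦ⟩ := hind k le_rfl
  have hΦ0 : Φ ∅ ≤ 2 * A.card ^ 2 := by
    simp only [hΦ]
    have h1 := selPhi_empty θ A
    have h2 := selPhi_empty θ B
    rw [← hcard] at h2
    omega
  have hΦQ : Φ Q ≤ 6 * A.card ^ 2 := by
    have h1 : Φ Q * P ^ k ≤ 6 * A.card ^ 2 * P ^ k := by
      calc Φ Q * P ^ k ≤ Φ ∅ * (P + θ * L) ^ k := hQΦ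
        _ ≤ (2 * A.card ^ 2) * (3 * P ^ k) :=
            Nat.mul_le_mul hΦ0 (sel_pow_le P (θ * L) k hP0 hP)
        _ = 6 * A.card ^ 2 * P ^ k := by ring
    exact Nat.le_of_mul_le_mul_right h1 (by positivity)
  refine ⟨Q, hQ, hQc, fun Q' hQ' => ⟨?_, ?_⟩⟩
  · refine (coll_mul_le_selPhi θ hθ A Q Q' hQ').trans (le_trans ?_ hΦQ)
    simp only [hΦ]
    omega
  · refine (coll_mul_le_selPhi θ hθ B Q Q' hQ').trans (le_trans ?_ hΦQ)
    simp only [hΦ]
    omega

end Vale.Agent.Lib.P012b
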