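import Vale.Agent.Lib.P012_helper13.LLSelect
import Vale.Agent.Lib.P012_helper13.LLCover
import Vale.Agent.Lib.P012_helper13.LLPrimes

/-!
# P012b: sources, pool of primes, and one step of the recursion
-/

namespace Vale.Agent.Lib.P012b

open Finset

/-! ## Sources: products of `σ`-subsets of a set of primes -/

/-- products of the `σ`-subsets of `S`. -/
def src (S : Finset ℕ) (σ : ℕ) : Finset ℕ := (S.powersetCard σ).image (fun I => ∏ p ∈ I, p)

theorem card_src (S : Finset ℕ) (hS : ∀ p ∈ S, p.Prime) (σ : ℕ) :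
    (src S σ).card = S.card.choose σ := by
  unfold src
  rw [Finset.card_image_of_injOn, Finset.card_powersetCard]
  intro I hI J hJ h
  have hI' := (Finset.mem_powersetCard.1 hI).1
  have hJ' := (Finset.mem_powersetCard.1 hJ).1
  have h1 := Nat.primeFactors_prod (fun p hp => hS p (hI' hp))
  have h2 := Nat.primeFactors_prod (fun p hp => hS p (hJ' hp))
  simp only at h
  rw [← h1, ← h2, h]

theorem src_dvd {S : Finset ℕ} {σ a : ℕ} (ha : a ∈ src S σ) : a ∣ ∏ p ∈ S, p := by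
  obtain ⟨I, hI, rfl⟩ := Finset.mem_image.1 ha
  exact Finset.prod_dvd_prod_of_subset _ _ _ (Finset.mem_powersetCard.1 hI).1

theorem src_le {S : Finset ℕ} {σ a Y : ℕ} (hS : ∀ p ∈ S, p ≤ Y) (ha : a ∈ src S σ) :
    a ≤ Y ^ σ := by
  obtain ⟨I, hI, rfl⟩ := Finset.mem_image.1 ha
  have hI' := Finset.mem_powersetCard.1 hI
  rw [← hI'.2]
  exact Finset.prod_le_pow_card _ _ _ (fun p hp => hS p (hI'.1 hp))

theorem mem_of_prime_dvd_prod {q : ℕ} (hq : q.Prime) (S : Finset ℕ) (hS : ∀ p ∈ S, p.Prime)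
    (h : q ∣ ∏ p ∈ S, p) : q ∈ S := by
  obtain ⟨p, hp, hqp⟩ := (Prime.dvd_finsetProd_iff hq.prime _).1 h
  rwa [(Nat.prime_dvd_prime_iff_eq hq (hS p hp)).1 hqp]

theorem src_not_two_dvd {S : Finset ℕ} {σ a : ℕ} (hS : ∀ p ∈ S, p.Prime) (h2 : 2 ∉ S)
    (ha : a ∈ src S σ) : ¬ 2 ∣ a := fun h =>
  h2 (mem_of_prime_dvd_prod Nat.prime_two S hS (h.trans (src_dvd ha)))

theorem two_pow_mul_inj {i j x y : ℕ} (hx : ¬ 2 ∣ x) (hy : ¬ 2 ∣ y) (h : 2 ^ i * x = 2 ^ j * y) :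
    i = j := by
  rcases lt_trichotomy i j with hlt | heq | hgt
  · exfalso
    obtain ⟨d, rfl⟩ := Nat.exists_eq_add_of_lt hlt
    apply hx
    have h1 : 2 ^ i * x = 2 ^ i * (2 * (2 ^ d * y)) := by rw [h]; ring
    have h2 := Nat.eq_of_mul_eq_mul_left (by positivity) h1
    exact ⟨_, h2⟩
  · exact heq
  · exfalso
    obtain ⟨d, rfl⟩ := Nat.exists_eq_add_of_lt hgt
    apply hy
    have h1 : 2 ^ j * y = 2 ^ j * (2 * (2 ^ d * x)) := by rw [← h]; ring
    have h2 := Nat.eq_of_mul_eq_mul_left (by positivity) h1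
    exact ⟨_, h2⟩

/-- entropy of the sources. -/
theorem two_pow_le_choose (i p : ℕ) (hp : p + 1 ≤ i) :
    2 ^ ((i - p - 1) * 2 ^ p) ≤ (2 ^ i).choose (2 ^ p) := by
  have h := Nat.pow_le_choose (α := ℚ) (2 ^ p) (2 ^ i)
  have hfac : (0 : ℚ) < ((2 ^ p).factorial : ℚ) := by exact_mod_cast Nat.factorial_pos _
  rw [div_le_iff₀ hfac] at h
  have h1 : (2 ^ i + 1 - 2 ^ p) ^ 2 ^ p ≤ (2 ^ i).choose (2 ^ p) * (2 ^ p).factorial := by
    exact_mod_cast h
  have h2 : (2 ^ p).factorial ≤ (2 ^ p) ^ 2 ^ p := Nat.factorial_le_pow _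
  have h3 : 2 ^ (i - 1) ≤ 2 ^ i + 1 - 2 ^ p := by
    have e1 : 2 ^ i = 2 * 2 ^ (i - 1) := by
      rw [← pow_succ']; congr 1; omega
    have e2 : 2 ^ p ≤ 2 ^ (i - 1) := Nat.pow_le_pow_right (by norm_num) (by omega)
    omega
  have h4 : (2 ^ (i - 1)) ^ 2 ^ p ≤ (2 ^ i).choose (2 ^ p) * (2 ^ p) ^ 2 ^ p :=
    calc (2 ^ (i - 1)) ^ 2 ^ p ≤ (2 ^ i + 1 - 2 ^ p) ^ 2 ^ p := Nat.pow_le_pow_left h3 _
      _ ≤ (2 ^ i).choose (2 ^ p) * (2 ^ p).factorial := h1
      _ ≤ (2 ^ i).choose (2 ^ p) * (2 ^ p) ^ 2 ^ p := Nat.mul_le_mul_left _ h2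
  have h5 : (2 ^ (i - 1)) ^ 2 ^ p = 2 ^ ((i - p - 1) * 2 ^ p) * (2 ^ p) ^ 2 ^ p := by
    rw [← pow_mul, ← pow_mul, ← pow_add]
    congr 1
    have : i - 1 = (i - p - 1) + p := by omega
    rw [this]
    ring
  rw [h5] at h4
  exact Nat.le_of_mul_le_mul_right h4 (by positivity)

/-! ## The number of pool primes dividing a difference -/

theorem card_filter_dvd_le (i σ : ℕ) (hi : 1 ≤ i) (pool : Finset ℕ) (hpool : pool ⊆ PP i)
    (a a' : ℕ) (ha : a ≤ (2 ^ (16 * i)) ^ σ) (ha' : a' ≤ (2 ^ (16 * i)) ^ σ) (hne : a ≠ a') :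
    (pool.filter (fun q : ℕ => (q : ℤ) ∣ (a : ℤ) - (a' : ℤ))).card ≤ 2 * σ := by
  set T := pool.filter (fun q : ℕ => (q : ℤ) ∣ (a : ℤ) - (a' : ℤ)) with hT
  have hTp : ∀ q ∈ T, q.Prime := fun q hq => (mem_PP (hpool (Finset.mem_filter.1 hq).1)).1
  have hdv := prod_primes_dvd_int T hTp ((a : ℤ) - (a' : ℤ)) (fun q hq => (Finset.mem_filter.1 hq).2)
  have hz : (a : ℤ) - (a' : ℤ) ≠ 0 := by
    intro h
    apply hne
    have : (a : ℤ) = a' := by linarith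
    exact_mod_cast this
  have h1 : ∏ q ∈ T, q ≤ ((a : ℤ) - (a' : ℤ)).natAbs :=
    Nat.le_of_dvd (Int.natAbs_pos.2 hz) (Int.natCast_dvd.1 hdv)
  have h2 : ((a : ℤ) - (a' : ℤ)).natAbs ≤ (2 ^ (16 * i)) ^ σ := by omega
  have h3 : (2 ^ (8 * i)) ^ T.card ≤ ∏ q ∈ T, q :=
    Finset.pow_card_le_prod _ _ _ (fun q hq => (mem_PP (hpool (Finset.mem_filter.1 hq).1)).2.1.le)
  have h4 : 2 ^ (8 * i * T.card) ≤ 2 ^ (16 * i * σ) := by
    rw [pow_mul 2 (8 * i) T.card, pow_mul 2 (16 * i) σ]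
    exact h3.trans (h1.trans h2)
  have h5 : 8 * i * T.card ≤ 16 * i * σ := (Nat.pow_le_pow_iff_right (by norm_num)).1 h4
  have h6 : (8 * i) * T.card ≤ (8 * i) * (2 * σ) := by
    calc (8 * i) * T.card ≤ 16 * i * σ := h5
      _ = (8 * i) * (2 * σ) := by ring
  exact Nat.le_of_mul_le_mul_left h6 (by omega)

/-! ## The state of the recursion and one step -/

/-- `c` block primes (at least, up to the cap `9 * 2 ^ i`) have been killed with `t` divisors. -/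
def St (i E : ℕ) (S : Finset ℕ) (c t : ℕ) : Prop :=
  ∃ U : Finset ℕ, U ⊆ PP i \ S ∧ U.card ≤ 10 * 2 ^ i ∧ min c (9 * 2 ^ i) ≤ U.card ∧
    ∀ m < 2 ^ E * ∏ q ∈ U, q, Rep (2 ^ E * (∏ q ∈ U, q) * (∏ p ∈ S, p) ^ 2) t m

theorem step (i E : ℕ) (hi : 12 ≤ i) (hE : 7 ≤ E) (S : Finset ℕ) (hS : S ⊆ PP i)
    (hSc : S.card = 2 ^ i) (σ k c t : ℕ) (hk1 : 1 ≤ k) (hk2 : k ≤ 2 ^ i) (hσ : σ ≤ 2 ^ i)
    (hent : 2 ^ (12 * i * k) ≤ (2 ^ i).choose σ) (hsz : 10 + 32 * i * σ ≤ E + 8 * i * c)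
    (h : St i E S c t) : St i E S (c + k) (t + 8) := by
  obtain ⟨U, hU, hUc, hcU, hRep⟩ := h
  have hSp : ∀ p ∈ S, p.Prime := fun p hp => (mem_PP (hS hp)).1
  have hUp : ∀ p ∈ U, p.Prime := fun p hp => (mem_PP (Finset.sdiff_subset (hU hp))).1
  have hN0 : 2 ^ E * (∏ q ∈ U, q) * (∏ p ∈ S, p) ^ 2 ≠ 0 := by
    have h1 : 0 < ∏ q ∈ U, q := Finset.prod_pos (fun q hq => (hUp q hq).pos)
    have h2 : 0 < ∏ q ∈ S, q := Finset.prod_pos (fun q hq => (hSp q hq).pos)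
    positivity
  by_cases hbig : 9 * 2 ^ i ≤ U.card
  · exact ⟨U, hU, hUc, (min_le_right _ _).trans hbig,
      fun m hm => (hRep m hm).mono (dvd_refl _) hN0 (by omega)⟩
  push Not at hbig
  have hcU' : c ≤ U.card := by
    rcases min_le_iff.1 hcU with h1 | h1
    · exact h1
    · omega
  set θ := 2 ^ (12 * i) with hθ
  set Y := 2 ^ (16 * i) with hY
  set n := θ ^ k with hn
  have hn' : n ≤ (src S σ).card := by
    rw [card_src S hSp, hSc, hn, hθ, ← pow_mul]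
    exact hent
  obtain ⟨A, hA, hAc⟩ := Finset.exists_subset_card_eq hn'
  set pool := PP i \ (S ∪ U) with hpool
  have hpoolPP : pool ⊆ PP i := Finset.sdiff_subset
  have hAle : ∀ a ∈ A, a ≤ Y ^ σ := fun a ha =>
    src_le (fun p hp => (mem_PP (hS hp)).2.2.1) (hA ha)
  have hL : ∀ a ∈ A, ∀ a' ∈ A, a ≠ a' →
      (pool.filter (fun q : ℕ => (q : ℤ) ∣ (a : ℤ) - (a' : ℤ))).card ≤ 2 * σ :=
    fun a ha a' ha' hne =>
      card_filter_dvd_le i σ (by omega) pool hpoolPP a a' (hAle a ha) (hAle a' ha') hne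
  set P := θ * (2 * σ) * k + 1 with hP
  -- the pool is large enough
  have hpoolc : k + P ≤ pool.card := by
    have h1 := card_PP_ge i hi
    have h2 : (PP i).card ≤ pool.card + (S ∪ U).card := by
      rw [hpool]
      exact Finset.card_le_card_sdiff_add_card
    have h3 : (S ∪ U).card ≤ 2 ^ i + 10 * 2 ^ i := by
      calc (S ∪ U).card ≤ S.card + U.card := Finset.card_union_le _ _
        _ ≤ 2 ^ i + 10 * 2 ^ i := by omega
    set s := 2 ^ i with hs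
    have hs1 : 1 ≤ s := Nat.one_le_two_pow
    have hθs : θ = s ^ 12 := by rw [hθ, hs, ← pow_mul, mul_comm]
    have h4 : θ * (2 * σ) * k ≤ 2 * s ^ 14 := by
      calc θ * (2 * σ) * k ≤ θ * (2 * s) * s :=
            Nat.mul_le_mul (Nat.mul_le_mul_left _ (Nat.mul_le_mul_left _ hσ)) hk2
        _ = 2 * s ^ 14 := by rw [hθs]; ring
    have h5 : s ≤ s ^ 14 := by
      calc s = s ^ 1 := (pow_one s).symm
        _ ≤ s ^ 14 := Nat.pow_le_pow_right hs1 (by norm_num)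
    have h6 : 1 ≤ s ^ 14 := Nat.one_le_pow _ _ hs1
    omega
  obtain ⟨Q, hQpool, hQc, hQE⟩ := select A A pool (2 * σ) k θ P (Nat.one_le_two_pow) (by omega) rfl
    hL hL hpoolc (by omega)
  have hQPP : ∀ q ∈ Q, q ∈ PP i := fun q hq => hpoolPP (hQpool hq)
  have hQp : ∀ q ∈ Q, q.Prime := fun q hq => (mem_PP (hQPP q hq)).1
  have hQS : ∀ q ∈ Q, q ∉ S ∧ q ∉ U := by
    intro q hq
    have := (Finset.mem_sdiff.1 (hQpool hq)).2
    rw [Finset.mem_union] at this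
    tauto
  set u : Fin 8 → ℕ := fun j => 2 ^ (j : ℕ) with hu
  have hcov := cover A A Q u n Y θ hAc hAc hQp (fun q hq => (mem_PP (hQPP q hq)).2.2.1)
    (by
      intro q hq j hdv
      have h1 := (hQp q hq).dvd_of_dvd_pow hdv
      have h2 := Nat.le_of_dvd (by norm_num) h1
      have h3 := (mem_PP (hQPP q hq)).2.2.2
      omega)
    (by rw [← hAc]; exact hQE) Nat.one_le_two_pow (by rw [hQc])
    (by rw [hY, hθ, ← pow_mul, ← pow_mul]; exact Nat.pow_le_pow_right (by norm_num) (by omega))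
    (by
      rw [hQc, hY]
      have h1 : 2 * 7 ^ 8 * k ≤ 2 ^ 24 * 2 ^ i := Nat.mul_le_mul (by norm_num) hk2
      have h2 : 2 ^ 24 * 2 ^ i < 2 ^ (16 * i) := by
        rw [← pow_add]
        exact Nat.pow_lt_pow_right (by norm_num) (by omega)
      omega)
  have h2S : 2 ∉ S := by
    intro h
    have := (mem_PP (hS h)).2.2.2
    omega
  have hodd : ∀ a ∈ A, ¬ 2 ∣ a := fun a ha => src_not_two_dvd hSp h2S (hA ha)
  have hodd2 : ∀ a ∈ A, ∀ b ∈ A, ¬ 2 ∣ a * b := by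
    intro a ha b hb hdv
    rcases (Nat.Prime.dvd_mul Nat.prime_two).1 hdv with h | h
    · exact hodd a ha h
    · exact hodd b hb h
  have hHge : 2 ^ (E + 8 * i * c) ≤ 2 ^ E * ∏ q ∈ U, q := by
    rw [pow_add]
    apply Nat.mul_le_mul_left
    calc 2 ^ (8 * i * c) ≤ 2 ^ (8 * i * U.card) :=
          Nat.pow_le_pow_right (by norm_num) (Nat.mul_le_mul_left _ hcU')
      _ = (2 ^ (8 * i)) ^ U.card := by rw [pow_mul]
      _ ≤ ∏ q ∈ U, q := Finset.pow_card_le_prod _ _ _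
          (fun q hq => (mem_PP (Finset.sdiff_subset (hU hq))).2.1.le)
  have hext := extend (2 ^ E * (∏ q ∈ U, q) * (∏ p ∈ S, p) ^ 2) (2 ^ E * ∏ q ∈ U, q) t hRep
    A A Q u
    (by
      intro j a ha b hb
      have h1 : u j ∣ 2 ^ E := by
        simp only [hu]
        exact pow_dvd_pow 2 (by omega)
      have h2 : a * b ∣ (∏ p ∈ S, p) ^ 2 := by
        rw [sq]
        exact Nat.mul_dvd_mul (src_dvd (hA ha)) (src_dvd (hA hb))
      rw [mul_assoc]
      exact Nat.mul_dvd_mul (h1.trans (dvd_mul_right _ _)) h2)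
    (by
      intro j a ha b hb
      have h1 : u j ≤ 2 ^ 7 := by
        simp only [hu]
        exact Nat.pow_le_pow_right (by norm_num) (by omega)
      calc 8 * (u j * a * b) ≤ 8 * (2 ^ 7 * Y ^ σ * Y ^ σ) :=
            Nat.mul_le_mul_left _ (Nat.mul_le_mul (Nat.mul_le_mul h1 (hAle a ha)) (hAle b hb))
        _ = 2 ^ (10 + 32 * i * σ) := by
            rw [hY, ← pow_mul, pow_add]
            have : 32 * i * σ = 16 * i * σ + 16 * i * σ := by ring
            rw [this, pow_add]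
            ring
        _ ≤ 2 ^ (E + 8 * i * c) := Nat.pow_le_pow_right (by norm_num) hsz
        _ ≤ 2 ^ E * ∏ q ∈ U, q := hHge)
    (by
      intro j j' hjj a ha b hb a' ha' b' hb' heq
      apply hjj
      simp only [hu] at heq
      rw [mul_assoc, mul_assoc] at heq
      exact Fin.ext (two_pow_mul_inj (hodd2 a ha b hb) (hodd2 a' ha' b' hb') heq))
    hQp
    (by
      intro q hq hdv
      have hqp := hQp q hq
      rcases (Nat.Prime.dvd_mul hqp).1 hdv with h1 | h1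
      · rcases (Nat.Prime.dvd_mul hqp).1 h1 with h2 | h2
        · have h3 := hqp.dvd_of_dvd_pow h2
          have h4 := Nat.le_of_dvd (by norm_num) h3
          have h5 := (mem_PP (hQPP q hq)).2.2.2
          omega
        · exact (hQS q hq).2 (mem_of_prime_dvd_prod hqp U hUp h2)
      · exact (hQS q hq).1 (mem_of_prime_dvd_prod hqp S hSp (hqp.dvd_of_dvd_pow h1)))
    (by
      apply Finset.card_pos.1
      omega)
    hcov
  have hdisjUQ : Disjoint U Q := by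
    rw [Finset.disjoint_left]
    intro q hqU hqQ
    exact (hQS q hqQ).2 hqU
  refine ⟨U ∪ Q, ?_, ?_, ?_, ?_⟩
  · intro q hq
    rcases Finset.mem_union.1 hq with h1 | h1
    · exact hU h1
    · exact Finset.mem_sdiff.2 ⟨hQPP q h1, (hQS q h1).1⟩
  · rw [Finset.card_union_of_disjoint hdisjUQ, hQc]
    omega
  · rw [Finset.card_union_of_disjoint hdisjUQ, hQc]
    exact (min_le_left _ _).trans (by omega)
  · intro m hm
    rw [Finset.prod_union hdisjUQ] at hm ⊢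
    have h1 := hext m (by rw [mul_assoc]; exact hm)
    have h2 : 2 ^ E * (∏ q ∈ U, q) * (∏ p ∈ S, p) ^ 2 * ∏ q ∈ Q, q
        = 2 ^ E * ((∏ q ∈ U, q) * ∏ q ∈ Q, q) * (∏ p ∈ S, p) ^ 2 := by ring
    rw [h2] at h1
    exact h1

end Vale.Agent.Lib.P012b
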