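import Vale.Agent.Lib.P012_helper15.Defs

/-!
# P012, task T8: numerical parameters

With `s = 2 ^ k`, `X = 2 ^ (16 k)`, the number of primes in `[5, X]` is large enough for the greedy
selection, and `K = 192 k + 12` is large enough for the covering step.
-/

namespace Vale.Agent.Lib.P012

open Finset

/-- the primes up to `X` are `2`, `3` and the primes in `[5, X]`. -/
theorem primeCounting_le_card_add_two (X : ℕ) :
    Nat.primeCounting X ≤ ((Icc 5 X).filter Nat.Prime).card + 2 := by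
  have h1 : Nat.primeCounting X = ((range (X + 1)).filter Nat.Prime).card := by
    rw [Nat.primeCounting, Nat.primeCounting', Nat.count_eq_card_filter_range]
  rw [h1]
  have hsub : (range (X + 1)).filter Nat.Prime ⊆ (Icc 5 X).filter Nat.Prime ∪ {2, 3} := by
    intro q hq
    rw [mem_filter, mem_range] at hq
    obtain ⟨hq1, hq2⟩ := hq
    rw [mem_union, mem_filter, mem_Icc, mem_insert, mem_singleton]
    by_cases h5 : 5 ≤ q
    · left
      exact ⟨⟨h5, by omega⟩, hq2⟩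
    · right
      have : q < 5 := by omega
      interval_cases q
      · exact absurd hq2 (by norm_num)
      · exact absurd hq2 (by norm_num)
      · left; rfl
      · right; rfl
      · exact absurd hq2 (by norm_num)
  calc ((range (X + 1)).filter Nat.Prime).card
      ≤ ((Icc 5 X).filter Nat.Prime ∪ {2, 3}).card := card_le_card hsub
    _ ≤ ((Icc 5 X).filter Nat.Prime).card + ({2, 3} : Finset ℕ).card := card_union_le _ _
    _ = ((Icc 5 X).filter Nat.Prime).card + 2 := by rfl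

/-- Chebyshev lower bound in the form we need. -/
theorem card_primes_ge (k : ℕ) (hk : 12 ≤ k) :
    ((2 : ℝ) ^ k) ^ 15 / 32 ≤ (((Icc 5 (2 ^ (16 * k))).filter Nat.Prime).card : ℝ) := by
  set c : ℕ := ((Icc 5 (2 ^ (16 * k))).filter Nat.Prime).card with hc
  have hpi := Chebyshev.pi_ge (2 ^ (16 * k))
  have hle : (Nat.primeCounting (2 ^ (16 * k)) : ℝ) ≤ (c : ℝ) + 2 := by
    exact_mod_cast primeCounting_le_card_add_two (2 ^ (16 * k))
  have hl2 : 0 < Real.log 2 := Real.log_pos (by norm_num)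
  have hkpos : (0 : ℝ) < k := by
    have : 0 < k := by omega
    exact_mod_cast this
  set x : ℝ := (2 : ℝ) ^ (16 * k) with hx
  have hxcast : ((2 ^ (16 * k) : ℕ) : ℝ) = x := by
    rw [hx]; push_cast; rfl
  rw [hxcast] at hpi
  have hxpos : 0 < x := by rw [hx]; positivity
  have hx1 : 1 ≤ x := by rw [hx]; exact one_le_pow₀ (by norm_num)
  have hlogx : Real.log x = 16 * k * Real.log 2 := by
    rw [hx, Real.log_pow]; push_cast; ring
  have hlogx1 : Real.log (x + 1) ≤ (16 * k + 1) * Real.log 2 := by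
    have h2x : Real.log (x + 1) ≤ Real.log (2 * x) :=
      Real.log_le_log (by linarith) (by linarith)
    rw [Real.log_mul (by norm_num) hxpos.ne', hlogx] at h2x
    linarith
  have hden : 0 < 16 * (k : ℝ) * Real.log 2 := by positivity
  rw [hlogx, div_le_iff₀ hden] at hpi
  -- `x - (16 k + 1) ≤ (c + 2) * 16 k`
  have hmain : x - (16 * k + 1) ≤ ((c : ℝ) + 2) * (16 * k) := by
    have h1 : (x - (16 * k + 1)) * Real.log 2 ≤ (((c : ℝ) + 2) * (16 * k)) * Real.log 2 := by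
      have h2 : (Nat.primeCounting (2 ^ (16 * k)) : ℝ) * (16 * k * Real.log 2)
          ≤ ((c : ℝ) + 2) * (16 * k * Real.log 2) :=
        mul_le_mul_of_nonneg_right hle hden.le
      nlinarith
    exact le_of_mul_le_mul_right h1 hl2
  set s : ℝ := (2 : ℝ) ^ k with hs
  have hxs : x = s ^ 16 := by
    rw [hx, hs, ← pow_mul, mul_comm]
  have hks : (k : ℝ) < s := by
    rw [hs]
    exact_mod_cast Nat.lt_two_pow_self
  have hs12 : (4096 : ℝ) ≤ s := by
    rw [hs]
    calc (4096 : ℝ) = 2 ^ 12 := by norm_num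
      _ ≤ 2 ^ k := pow_le_pow_right₀ (by norm_num) hk
  have hspos : 0 < s := by linarith
  -- `c * 16 k ≥ x - 49 k`, and `x ≥ 98 s`
  have h15 : (4096 : ℝ) ^ 15 ≤ s ^ 15 := pow_le_pow_left₀ (by norm_num) hs12 15
  have hk1 : (1 : ℝ) ≤ k := by
    have : 1 ≤ k := by omega
    exact_mod_cast this
  have hcpos : (0 : ℝ) ≤ c := Nat.cast_nonneg c
  -- from hmain: s^16 ≤ 16 k c + 49 k ≤ 16 s c + 49 s
  have h3 : s ^ 16 ≤ 16 * s * c + 49 * s := by
    have h4 : s ^ 16 ≤ 16 * k * c + 49 * k := by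
      rw [hxs] at hmain
      nlinarith
    have h5 : 16 * (k : ℝ) * c ≤ 16 * s * c := by
      have : 16 * (k : ℝ) ≤ 16 * s := by linarith
      exact mul_le_mul_of_nonneg_right this hcpos
    linarith
  have h6 : s ^ 15 ≤ 16 * c + 49 := by
    have : s * s ^ 15 ≤ s * (16 * c + 49) := by
      calc s * s ^ 15 = s ^ 16 := by ring
        _ ≤ 16 * s * c + 49 * s := h3
        _ = s * (16 * c + 49) := by ring
    exact le_of_mul_le_mul_left this hspos
  have h7 : (98 : ℝ) ≤ s ^ 15 := le_trans (by norm_num) h15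
  linarith

theorem params (k : ℕ) (hk : 12 ≤ k) :
    16 * 2 ^ k ≤ ((Icc 5 (2 ^ (16 * k))).filter Nat.Prime).card ∧
    (16 * (2 ^ k : ℕ) * (2 ^ (16 * k) : ℕ) /
        (((Icc 5 (2 ^ (16 * k))).filter Nat.Prime).card : ℕ) : ℝ) ^ 4 *
      (((2 ^ k : ℕ) : ℝ) ^ 2 /
        ((((Icc 5 (2 ^ (16 * k))).filter Nat.Prime).card : ℕ) - (2 ^ k : ℕ))) ≤ 1 / 240 ∧
    8 * ((2 ^ (16 * k) : ℕ) : ℝ) ^ 3 ≤ (5 / 4 : ℝ) ^ (192 * k + 12) := by
  have hc := card_primes_ge k hk
  set c : ℕ := ((Icc 5 (2 ^ (16 * k))).filter Nat.Prime).card with hcdef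
  have hscast : ((2 ^ k : ℕ) : ℝ) = (2 : ℝ) ^ k := by push_cast; rfl
  have hxcast : ((2 ^ (16 * k) : ℕ) : ℝ) = ((2 : ℝ) ^ k) ^ 16 := by
    push_cast
    rw [← pow_mul, mul_comm]
  set s : ℝ := (2 : ℝ) ^ k with hs
  have hs12 : (4096 : ℝ) ≤ s := by
    rw [hs]
    calc (4096 : ℝ) = 2 ^ 12 := by norm_num
      _ ≤ 2 ^ k := pow_le_pow_right₀ (by norm_num) hk
  have hspos : 0 < s := by linarith
  have h14 : (4096 : ℝ) ^ 14 ≤ s ^ 14 := pow_le_pow_left₀ (by norm_num) hs12 14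
  have h5 : (4096 : ℝ) ^ 5 ≤ s ^ 5 := pow_le_pow_left₀ (by norm_num) hs12 5
  have h15pos : 0 < s ^ 15 := by positivity
  have hcpos : (0 : ℝ) < c := lt_of_lt_of_le (by positivity) hc
  -- `1024 s ≤ s ^ 15 / 32`
  have hbig : 64 * s ≤ s ^ 15 / 64 := by
    have : s ^ 15 = s * s ^ 14 := by ring
    rw [this]
    have h : (4096 : ℝ) ≤ s ^ 14 := le_trans (by norm_num) h14
    nlinarith
  refine ⟨?_, ?_, ?_⟩
  · have h : (16 * 2 ^ k : ℝ) ≤ (c : ℝ) := by
      rw [← hs]
      linarith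
    exact_mod_cast h
  · rw [hscast, hxcast]
    have hcs : s ^ 15 / 64 ≤ (c : ℝ) - s := by linarith
    have hcs_pos : 0 < (c : ℝ) - s := lt_of_lt_of_le (by positivity) hcs
    have hA : 16 * s * s ^ 16 / (c : ℝ) ≤ 512 * s ^ 2 := by
      rw [div_le_iff₀ hcpos]
      calc 16 * s * s ^ 16 = 512 * s ^ 2 * (s ^ 15 / 32) := by ring
        _ ≤ 512 * s ^ 2 * c := mul_le_mul_of_nonneg_left hc (by positivity)
    have hA0 : 0 ≤ 16 * s * s ^ 16 / (c : ℝ) := by positivity
    have hB : s ^ 2 / ((c : ℝ) - s) ≤ 64 / s ^ 13 := by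
      rw [div_le_div_iff₀ hcs_pos (by positivity)]
      calc s ^ 2 * s ^ 13 = 64 * (s ^ 15 / 64) := by ring
        _ ≤ 64 * ((c : ℝ) - s) := mul_le_mul_of_nonneg_left hcs (by norm_num)
    have hB0 : 0 ≤ s ^ 2 / ((c : ℝ) - s) := by positivity
    calc (16 * s * s ^ 16 / (c : ℝ)) ^ 4 * (s ^ 2 / ((c : ℝ) - s))
        ≤ (512 * s ^ 2) ^ 4 * (64 / s ^ 13) :=
          mul_le_mul (pow_le_pow_left₀ hA0 hA 4) hB hB0 (by positivity)
      _ = 512 ^ 4 * 64 / s ^ 5 := by
          field_simp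
      _ ≤ 1 / 240 := by
          rw [div_le_div_iff₀ (by positivity) (by norm_num)]
          have : (512 : ℝ) ^ 4 * 64 * 240 ≤ 4096 ^ 5 := by norm_num
          linarith
  · rw [hxcast]
    have h54 : (2 : ℝ) ≤ (5 / 4 : ℝ) ^ 4 := by norm_num
    calc 8 * (s ^ 16) ^ 3 = (2 : ℝ) ^ (48 * k + 3) := by
          rw [hs, ← pow_mul, ← pow_mul, pow_add]
          ring
      _ ≤ ((5 / 4 : ℝ) ^ 4) ^ (48 * k + 3) := pow_le_pow_left₀ (by norm_num) h54 _
      _ = (5 / 4 : ℝ) ^ (192 * k + 12) := by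
          rw [← pow_mul]
          congr 1
          ring

end Vale.Agent.Lib.P012
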